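import Vale.Agent.P301Z.Sec.Top
import Vale.Agent.P301Z.Ho.All

/-!
# P301Z, block SEC
-/

namespace Vale.Agent.P301Z.Sec

theorem sec : SEC := sec_hl2 Ho.hl2

theorem hpt : Sa.HPT := hpt_hl2 Ho.hl2

end Vale.Agent.P301Z.Sec
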