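import Vale.Agent.P301Z.Sec.Defs
import Vale.Agent.P285K.All
import Vale.Agent.P285Z.Ihs
import Vale.Agent.P301.H99.PairSec

/-!
# P301Z, block SEC: the assembly
-/

open scoped Manifold ContDiff ComplexOrder Topology Matrix
open Set Filter Metric
open Vale.Agent.P272.K Vale.Agent.P301.H599 Vale.Agent.P301.H99
open Vale.Agent.P277Z (Hol)
open Vale.Agent.P277Z.Slc (Ind dd)
open Vale.Agent.P301.H949 (Is01 del)
open Vale.Agent.P301.H862 (powL)
open Vale.Agent.P285Z (powM)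
open Vale.Agent.P301Z.Sa

set_option linter.unusedSectionVars false

noncomputable section

namespace Vale.Agent.P301Z.Sec

namespace Asm

variable {d : ℕ} {X : Type} [TopologicalSpace X] [ChartedSpace (Cm d) X] {ι : Type}

theorem en_herm (s : MF d X) {n : ℕ} (π : X → Cm n) (e : Chart d X) (x : X) (t : ℝ) :
    (((t : ℝ) : ℂ) • En s π e x).IsHermitian := by
  unfold En Matrix.IsHermitian
  rw [Matrix.conjTranspose_smul, Matrix.conjTranspose_smul, Matrix.conjTranspose_sum]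
  simp only [Matrix.conjTranspose_vecMulVec, star_star, RCLike.star_def, Complex.conj_ofReal]

theorem is01_smul {γ : Chart d X → Cm d → Fin d → ℂ} (h : Is01 γ) (c : ℝ) :
    Is01 fun (e : Chart d X) z l => (c : ℂ) * γ e z l :=
  h.smul (u := fun _ => c) fun _ _ _ => contDiffAt_const

theorem del_smul {γ : Chart d X → Cm d → Fin d → ℂ} (h : Is01 γ) (c : ℝ) {e : Chart d X} {x : X}
    (hx : At e x) : del (fun (e : Chart d X) z l => (c : ℂ) * γ e z l) e (e x) =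
      (c : ℂ) • del γ e (e x) := by
  ext k l
  exact C2.dz_const_mul k _ ((h.smooth e x hx l).differentiableAt (by simp))

theorem exa_pow [IsManifold 𝓘(ℂ, Cm d) ω X] {L : LineBundle d X ι} {ρ : ι → X → ℝ} (hρ : IsMetric L ρ) {O : Set X}
    (h : Exa (curvature L ρ) O) (K : ℕ) : Exa (curvature (powL L K) (powM ρ K)) O := by
  obtain ⟨γ, γ', h1, h2, h3⟩ := h
  refine ⟨_, _, is01_smul h1 K, is01_smul h2 K, fun x hx e he => ?_⟩
  have h4 := Vale.Agent.P285Z.curvature_pow hρ K e x he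
  simp only [] at h4
  rw [h4, h3 x hx e he, del_smul h1 _ he, del_smul h2 _ he, Matrix.conjTranspose_smul, smul_add,
    RCLike.star_def, Complex.conj_ofReal]

theorem sec_pow {L : LineBundle d X ι} {K : ℕ} {f : ι → X → ℂ} (h : Sec L K f) :
    Sec (powL L K) 1 f :=
  ⟨h.1, fun i j x hi hj => by
    rw [pow_one]
    exact h.2 i j x hi hj⟩

/-- quotients of sections with given jets -/
theorem ind_quo {n : ℕ} {g σ : Fin n → X → ℂ} {σ₀ u : X → ℂ} {x : X} (hg : Ind d g x)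
    (h0 : ∀ j, g j x = 0) (hu : Hol d u x) (hu0 : u x ≠ 0) (hσ₀ : Hol d σ₀ x) (e0 : σ₀ x = u x)
    (hσ : ∀ j, Hol d (σ j) x) (e1 : ∀ j, σ j x = g j x * u x)
    (e2 : ∀ j, ∀ c : Chart d X, At c x → dd (σ j) c x = dd (fun y => g j y * u y) c x) :
    Ind d (fun j y => σ j y / σ₀ y) x := by
  have hi : Hol d (fun y => (σ₀ y)⁻¹) x := fun c hc =>
    (hσ₀ c hc).fun_inv (by rw [hc.left_inv, e0]; exact hu0)
  have hq : ∀ j, (fun y => σ j y / σ₀ y) = fun y => (σ₀ y)⁻¹ * σ j y := fun j =>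
    funext fun y => by rw [div_eq_inv_mul]
  refine ⟨fun j c hc => ?_, fun c hc => ?_⟩
  · exact (hσ j c hc).fun_div (hσ₀ c hc) (by rw [hc.left_inv, e0]; exact hu0)
  · have h1 : (fun j => dd (fun y => σ j y / σ₀ y) c x) = fun j => dd (g j) c x := by
      funext j
      have h2 : (fun y => g j y * u y) = fun y => u y * g j y := funext fun y => mul_comm _ _
      rw [hq, P277Z.Slc.dd_mul hi (hσ j) (by rw [e1, h0, zero_mul]) hc, e2 j c hc, h2,
        P277Z.Slc.dd_mul hu (hg.1 j) (h0 j) hc, smul_smul, e0, inv_mul_cancel₀ hu0, one_smul]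
    rw [h1]
    exact hg.2 c hc

variable [IsManifold 𝓘(ℂ, Cm d) ω X] [T2Space X] [CompactSpace X] [SimplyConnectedSpace X]

/-- nonvanishing -/
theorem nonvan {w s : MF d X} (hs : IsSymplectic d X w s) {L : LineBundle d X ι} {ρ : ι → X → ℝ}
    (hρ : IsMetric L ρ) (hn : Nef w L ρ) (h0 : Isotropic L ρ) :
    ∃ K, 0 < K ∧ ∃ f : ι → X → ℂ, Sec L K f ∧ ∃ i x, x ∈ L.U i ∧ f i x ≠ 0 := by
  obtain ⟨h, hh, hk⟩ := Vale.Agent.P285Z.ihs d X w s hs
  have hz : Vale.Agent.P285Z.ZL L := by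
    refine Vale.Agent.P285K.zk d X w hs.kahler ι L ρ hρ hn 0 h le_rfl hh fun e x hx => ?_
    have h1 := hk e x hx
    show (((0 : ℝ) : ℂ) • curvature L ρ e (e x) + ddc h e (e x) -
      Vale.Agent.P285Z.kc w e (e x)).PosSemidef
    rw [h1, Complex.ofReal_zero, zero_smul, zero_add, sub_self]
    exact Matrix.PosSemidef.zero
  obtain ⟨ψ, hψ, hl, -⟩ := hz
  obtain ⟨f, h1, h2, h3⟩ := IsPair.hasSec ⟨w, s, ρ, hs, hρ, Or.inr ⟨hn, h0, ψ, hψ, hl⟩⟩
  exact ⟨_, Nat.factorial_pos _, f, ⟨h1, h2⟩, h3⟩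

end Asm

open Asm

theorem sec_of (tub : TUB) (exc : EXC) (cof : COF) (stk : STK) (lim : LIM) (trf : TRF) (sub : SUB)
    (hjt : HJT) (mon : MON) : SEC := by
  intro n V _ w s hs ι L ρ hρ hn h0 hne F
  obtain ⟨hT, hL⟩ := tub n V s _ hs.form hs.nondeg F
  obtain ⟨r', E, η, hr', hr1, hC⟩ := cof _ V.X w s hs n F.U F.π 0 1 hT
  obtain ⟨K, hK, f, hf, hf0⟩ := nonvan hs hρ hn h0
  have hρK := Vale.Agent.P285Z.isMetric_pow hρ K
  have h1 := stk _ V.X _ E F.U hC.co (fun e x hx => by rw [hC.eq e x hx]; exact en_herm _ _ _ _ _)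
    (fun e x hx hxo => by rw [hC.eq e x hx, hC.out x hxo, Complex.ofReal_zero, zero_smul])
    (exa_pow hρ (exc n V s _ F) K)
  have h2 := lim _ V.X ι _ _ f E hρK (sec_pow hf) hf0 hC.co h1
  have h3 := trf _ V.X s hs.form hs.nondeg n F.U F.π 0 1 r' E η hT hL hC ι _ _ f hρK (sec_pow hf) h2
  obtain ⟨U, g, x, hloc, hx, hg0, hg⟩ := sub _ V.X s n F.U F.π 0 1 r' hT hr' hr1 ι L K f hK hf hf0 h3
  obtain ⟨m, hm, h4⟩ := hjt _ n V.X w s (two_mul n).symm hs ι L ρ hρ hn h0 hne U n g K f ∅ hloc x hx hg0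
  obtain ⟨σ₀, k1, k2⟩ := h4 (fun _ => 1) fun _ _ _ _ => analyticAt_const
  choose σ k3 k4 using fun j => h4 (g j) (hloc.hol j)
  obtain ⟨i, hi⟩ := L.cover x
  have hu0 : f i x ^ m ≠ 0 := pow_ne_zero _ (hloc.gen.ne i x hx hi)
  have e0 : σ₀ i x = f i x ^ m := by rw [(k2 i hi).1, one_mul]
  refine mon _ V.X n ι L (K * m) σ₀ σ x i rfl (Nat.mul_pos hK hm) k1 k3 hi (by rw [e0]; exact hu0) ?_
  exact ind_quo (u := fun y => f i y ^ m) hg hg0
    (fun c hc => (hloc.gen.hol i x hx hi c hc).fun_pow m) hu0 (fun c hc => k1.1 i c x hc hi) e0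
    (fun j c hc => (k3 j).1 i c x hc hi) (fun j => (k4 j i hi).1) fun j => (k4 j i hi).2

end Vale.Agent.P301Z.Sec
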