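import Vale.Agent.P301Z.Sec.Defs

/-!
# P301Z, block SEC: the closed form of a tube
-/

open scoped Manifold ContDiff Topology Matrix
open Set Filter Metric
open Vale.Agent.P272.K Vale.Agent.P301.H599
open Vale.Agent.P277Z (Hol)
open Vale.Agent.P301.H450 (IsCoForm kf isCoForm_kf exists_rf)
open Vale.Agent.P301Z.Sa

noncomputable section

namespace Vale.Agent.P301Z.Sec

namespace Cof

section loc

variable {d n : ℕ} {h : Fin n → Cm d → ℂ} {z : Cm d}

theorem coe_sq (y : Cm d) : ((∑ l, ‖h l y‖ ^ 2 : ℝ) : ℂ) = ∑ l, h l y * starRingEnd ℂ (h l y) := by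
  simp only [Complex.mul_conj']
  push_cast
  rfl

theorem sm (hh : ∀ l, AnalyticAt ℂ (h l) z) (l : Fin n) : ContDiffAt ℝ ∞ (h l) z :=
  ((hh l).contDiffAt (n := ∞)).restrict_scalars ℝ

theorem df (hh : ∀ l, AnalyticAt ℂ (h l) z) (l : Fin n) : DifferentiableAt ℝ (h l) z :=
  (sm hh l).differentiableAt (by simp)

theorem sm_sq (hh : ∀ l, AnalyticAt ℂ (h l) z) : ContDiffAt ℝ ∞ (fun y => ∑ l, ‖h l y‖ ^ 2) z :=
  ContDiffAt.sum fun l _ => (sm hh l).norm_sq ℂ

theorem dz_sq (hh : ∀ l, AnalyticAt ℂ (h l) z) (i : Fin d) :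
    dz i (fun y => ((∑ l, ‖h l y‖ ^ 2 : ℝ) : ℂ)) z = ∑ l, dz i (h l) z * starRingEnd ℂ (h l z) := by
  simp only [coe_sq]
  rw [C2.dz_sum _ _ fun l _ => (df hh l).fun_mul (C2.differentiableAt_conj (df hh l))]
  refine Finset.sum_congr rfl fun l _ => ?_
  rw [C2.dz_mul _ (df hh l) (C2.differentiableAt_conj (df hh l)), C2.dz_conj _ (df hh l),
    INT.dzb_of_holo (hh l).differentiableAt, map_zero, mul_zero, add_zero]

theorem dzb_sq (hh : ∀ l, AnalyticAt ℂ (h l) z) (i : Fin d) :
    dzb i (fun y => ((∑ l, ‖h l y‖ ^ 2 : ℝ) : ℂ)) z = ∑ l, h l z * starRingEnd ℂ (dz i (h l) z) := by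
  rw [C2.dzb_real _ ((sm_sq hh).differentiableAt (by simp)), dz_sq hh, map_sum]
  exact Finset.sum_congr rfl fun l _ => by rw [map_mul, Complex.conj_conj, mul_comm]

theorem cHess_sq (hh : ∀ l, AnalyticAt ℂ (h l) z) : cHess (fun y => ∑ l, ‖h l y‖ ^ 2) z =
    ∑ l, Matrix.vecMulVec (fun i => dz i (h l) z) (star fun i => dz i (h l) z) := by
  ext j k
  have h1 : ∀ᶠ y in 𝓝 z, ∀ l, AnalyticAt ℂ (h l) y :=
    eventually_all.2 fun l => (hh l).eventually_analyticAt
  have h2 : ∀ l, ContDiffAt ℝ 2 (h l) z := fun l => (sm hh l).of_le INT.two_le_inf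
  have h3 := fun l => C2.differentiableAt_conj (C2.differentiableAt_dz k (h2 l))
  rw [C2.cHess_apply, C2.dz_congr j (h1.mono fun y hy => dzb_sq hy k),
    C2.dz_sum _ _ fun l _ => (df hh l).fun_mul (h3 l), Matrix.sum_apply]
  refine Finset.sum_congr rfl fun l _ => ?_
  rw [C2.dz_mul _ (df hh l) (h3 l), C2.dz_conj _ (C2.differentiableAt_dz k (h2 l)),
    ← C2.dz_dzb_comm _ _ (h2 l), C2.dz_congr k (g := fun _ => 0)
      (h1.mono fun y hy => INT.dzb_of_holo (hy l).differentiableAt j), C2.dz_const, map_zero,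
    mul_zero, add_zero]
  rfl

theorem alg (a D : ℂ) (g Y : Fin n → Fin d → ℂ) (c x : Fin n → ℂ) (h0 : ∀ l k, Y l ⬝ᵥ g k = 0) :
    ∑ i, (a * ∑ k, g k i * c k) * (D * ∑ l, x l * Y l i) = 0 := by
  have : ∑ i, (a * ∑ k, g k i * c k) * (D * ∑ l, x l * Y l i) =
      ∑ l, ∑ k, a * D * x l * c k * (Y l ⬝ᵥ g k) := by
    simp only [dotProduct, Finset.mul_sum, Finset.sum_mul]
    rw [Finset.sum_comm]
    refine Finset.sum_congr rfl fun l _ => ?_
    rw [Finset.sum_comm]
    exact Finset.sum_congr rfl fun k _ => Finset.sum_congr rfl fun i _ => by ring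
  simp [this, h0]

end loc

variable {d n : ℕ} {X : Type} [TopologicalSpace X] [T2Space X] [ChartedSpace (Cm d) X]
  {s : MF d X} {O : Set X} {π : X → Cm n} {b : Cm n} {r : ℝ}

/-- the square of the distance in the base -/
def G (π : X → Cm n) (b : Cm n) (x : X) : ℝ := ∑ l, ‖π x l - b l‖ ^ 2

omit [T2Space X] in
theorem an (T : Tube s O π b r) {x : X} (hx : x ∈ O) {e : Chart d X} (he : At e x) (l : Fin n) :
    AnalyticAt ℂ (fun z => π (e.symm z) l - b l) (e x) :=
  ((T.ind x hx).1 l e he).fun_sub analyticAt_const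

omit [T2Space X] in
theorem dz_an (T : Tube s O π b r) {x : X} (hx : x ∈ O) {e : Chart d X} (he : At e x) (l : Fin n)
    (i : Fin d) : dz i (fun z => π (e.symm z) l - b l) (e x) = gr (fun y => π y l) e x i := by
  rw [C2.dz_sub _ (((T.ind x hx).1 l e he).differentiableAt.restrictScalars ℝ)
    (differentiableAt_const _), C2.dz_const, sub_zero]
  rfl

theorem out (T : Tube s O π b r) {ψ : ℝ → ℝ} (hψ : ∀ t, 4 ≤ 16 / r ^ 2 * t → ψ t = 0) {x : X}
    (hx : x ∉ O) : ∀ᶠ y in 𝓝 x, O.indicator (fun y => ψ (G π b y)) y = 0 := by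
  have hr := T.pos
  have h1 : {t : Cm n | 16 / r ^ 2 * ∑ l, ‖t l - b l‖ ^ 2 ≤ 4} ⊆ closedBall b (r / 2) := by
    intro t ht
    rw [mem_closedBall, dist_eq_norm, pi_norm_le_iff_of_nonneg (by positivity)]
    intro l
    have h2 : ‖t l - b l‖ ^ 2 ≤ ∑ l, ‖t l - b l‖ ^ 2 :=
      Finset.single_le_sum (f := fun l => ‖t l - b l‖ ^ 2) (fun _ _ => by positivity)
        (Finset.mem_univ l)
    rw [mem_ofPred, div_mul_eq_mul_div, div_le_iff₀ (by positivity)] at ht
    exact (pow_le_pow_iff_left₀ (norm_nonneg _) (by positivity) two_ne_zero).1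
      (by rw [Pi.sub_apply]; linarith)
  have h2 := (T.prp _ (h1.trans (closedBall_subset_ball (by linarith)))
    ((isCompact_closedBall b (r / 2)).of_isClosed_subset
      (isClosed_le (by fun_prop) continuous_const) h1)).isClosed
  filter_upwards [h2.isOpen_compl.mem_nhds fun h => hx h.1] with y hy
  by_cases h3 : y ∈ O
  · rw [indicator_of_mem h3]
    exact hψ _ (not_le.1 fun h => hy ⟨h3, h⟩).le
  · exact indicator_of_notMem h3 _

omit [T2Space X] in
theorem inn (T : Tube s O π b r) (F : X → ℝ) {x : X} (hx : x ∈ O) {e : Chart d X} (he : At e x) :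
    (fun z => O.indicator F (e.symm z)) =ᶠ[𝓝 (e x)] fun z => F (e.symm z) :=
  ((e.tendsto_symm he.2).eventually (T.opn.mem_nhds hx)).mono fun _ hz => indicator_of_mem hz F

theorem smooth (T : Tube s O π b r) {ψ : ℝ → ℝ} (h : ContDiff ℝ ∞ ψ)
    (hψ : ∀ t, 4 ≤ 16 / r ^ 2 * t → ψ t = 0) :
    SmoothFn (n := d) (O.indicator fun y => ψ (G π b y)) := fun e x he => by
  by_cases hx : x ∈ O
  · exact (h.contDiffAt.comp _ (sm_sq (an T hx he))).congr_of_eventuallyEq (inn T _ hx he)
  · exact contDiffAt_const.congr_of_eventuallyEq ((e.tendsto_symm he.2).eventually (out T hψ hx))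

omit [T2Space X] in
theorem cont (T : Tube s O π b r) {x : X} (hx : x ∈ O) {e : Chart d X} (he : At e x) :
    Tendsto (fun z => 16 / r ^ 2 * G π b (e.symm z)) (𝓝 (e x)) (𝓝 (16 / r ^ 2 * G π b x)) := by
  have := (sm_sq (an T hx he)).continuousAt.tendsto
  rw [e.left_inv he.2] at this
  exact this.const_mul _

omit [T2Space X] in
theorem key (T : Tube s O π b r) {x : X} (hx : x ∈ O) (h3 : 16 / r ^ 2 * G π b x < 3)
    {e : Chart d X} (he : At e x) : kf s (fun e z => cHess (fun y => O.indicator (fun y =>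
      G π b y * Real.smoothTransition (4 - 16 / r ^ 2 * G π b y)) (e.symm y)) z) e (e x) =
      En s π e x := by
  have h1 : (fun y => O.indicator (fun y => G π b y *
      Real.smoothTransition (4 - 16 / r ^ 2 * G π b y)) (e.symm y)) =ᶠ[𝓝 (e x)]
      fun y => ∑ l, ‖π (e.symm y) l - b l‖ ^ 2 := by
    filter_upwards [inn T _ hx he, (cont T hx he).eventually_lt_const h3] with z h1 h2
    rw [h1, Real.smoothTransition.one_of_one_le (by linarith), mul_one, G]
  rw [kf, En, C2.cHess_congr h1, cHess_sq (an T hx he), Matrix.transpose_sum, Finset.mul_sum,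
    Finset.sum_mul]
  refine congrArg _ (Finset.sum_congr rfl fun l _ => ?_)
  rw [Matrix.transpose_vecMulVec, Matrix.mul_vecMulVec, Matrix.vecMulVec_mul, hv,
    Matrix.star_vecMul, Matrix.conjTranspose_nonsing_inv, funext (dz_an T hx he l)]

end Cof

open Cof

theorem cof : COF := by
  intro d X _ _ _ _ _ _ w s hs n O π b r T
  obtain ⟨u, κ, -, hk⟩ := exists_rf hs hs.kahler
  have hr := T.pos
  have z1 : ContDiff ℝ ∞ fun t : ℝ => Real.smoothTransition (2 - 16 / r ^ 2 * t) :=
    Real.smoothTransition.contDiff.comp (by fun_prop)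
  have z2 : ContDiff ℝ ∞ fun t : ℝ => t * Real.smoothTransition (4 - 16 / r ^ 2 * t) :=
    contDiff_id.mul (Real.smoothTransition.contDiff.comp (by fun_prop))
  have z3 : ∀ t, 4 ≤ 16 / r ^ 2 * t → Real.smoothTransition (2 - 16 / r ^ 2 * t) = 0 :=
    fun t ht => Real.smoothTransition.zero_of_nonpos (by linarith)
  have s1 := smooth T z1 z3
  have E0 := isCoForm_kf hs.form hs.nondeg hk (INT.isClosedForm_cHess (smooth T z2 fun t ht => by
    rw [Real.smoothTransition.zero_of_nonpos (by linarith), mul_zero]))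
  have ky := fun x hx h3 e he => key (x := x) (e := e) T hx h3 he
  generalize kf s _ = E at E0 ky
  set η := O.indicator fun y => Real.smoothTransition (2 - 16 / r ^ 2 * G π b y) with hη
  have zn : ∀ e x, At e x → ¬ (x ∈ O ∧ 16 / r ^ 2 * G π b x < 3) →
      ∀ᶠ z in 𝓝 (e x), η (e.symm z) = 0 := fun e x he h => by
    by_cases hx : x ∈ O
    · have h2 : 2 < 16 / r ^ 2 * G π b x := by linarith [not_lt.1 fun k => h ⟨hx, k⟩]
      filter_upwards [inn T _ hx he, (cont T hx he).eventually_const_lt h2] with z h1 h2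
      rw [hη, h1, Real.smoothTransition.zero_of_nonpos (by linarith)]
    · exact (e.tendsto_symm he.2).eventually (out T z3 hx)
  have hn : (0 : ℝ) < 4 * (n + 1) := by positivity
  refine ⟨r / (4 * (n + 1)), fun e z => ((η (e.symm z) : ℝ) : ℂ) • E e z, η, by positivity,
    div_le_self hr.le (by linarith [Nat.cast_nonneg (α := ℝ) n]),
    ⟨fun e x he i j => (C2.contDiffAt_ofReal (s1 e x he)).mul (E0.smooth e x he i j),
      fun e e' x he he' => ?_, fun e x he j => ?_⟩, fun e x he => ?_,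
    fun x => indicator_nonneg (fun _ _ => Real.smoothTransition.nonneg _) x,
    fun x hx => indicator_of_notMem hx _, fun x hx hb => ?_⟩
  · rw [e.left_inv he.2, e'.left_inv he'.2, Matrix.mul_smul, Matrix.smul_mul, E0.change e e' x he he',
      smul_comm]
  · have d1 := C2.differentiableAt_ofReal ((s1 e x he).differentiableAt (by simp))
    simp only [Matrix.smul_apply, smul_eq_mul]
    rw [Finset.sum_congr rfl fun i _ => C2.dz_mul i d1
      ((E0.smooth e x he j i).differentiableAt (by simp)), Finset.sum_add_distrib, ← Finset.mul_sum,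
      E0.div e x he j, mul_zero, add_zero]
    by_cases h : x ∈ O ∧ 16 / r ^ 2 * G π b x < 3
    · have h1 := fun i => C2.dz_comp_real i
        ((z1.differentiable (by simp) _).hasDerivAt)
        ((sm_sq (an T h.1 he)).differentiableAt (by simp))
      have h2 : ∀ i, dz i (fun z => ((η (e.symm z) : ℝ) : ℂ)) (e x) = _ := fun i =>
        (C2.dz_congr i ((inn T _ h.1 he).mono fun z hz => congrArg _ hz)).trans (h1 i)
      simp only [h2, dz_sq (an T h.1 he), dz_an T h.1 he, ky x h.1 h.2 e he, En, Matrix.smul_apply,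
        smul_eq_mul, Matrix.sum_apply, Matrix.vecMulVec_apply]
      exact alg _ _ (fun k => gr (fun y => π y k) e x) (fun l => hv s (fun y => π y l) e x) _ _
        fun l k => by rw [hv, ← Matrix.dotProduct_mulVec]; exact T.com x h.1 e he l k
    · refine Finset.sum_eq_zero fun i _ => ?_
      rw [C2.dz_congr i (g := fun _ => 0) ((zn e x he h).mono fun z hz => by simp [hz]),
        C2.dz_const, zero_mul]
  · by_cases h : x ∈ O ∧ 16 / r ^ 2 * G π b x < 3
    · rw [e.left_inv he.2, ky x h.1 h.2 e he]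
    · have := (zn e x he h).self_of_nhds
      rw [e.left_inv he.2] at this ⊢
      simp [this]
  · rw [hη, indicator_of_mem hx]
    refine Real.smoothTransition.one_of_one_le ?_
    have h1 : G π b x ≤ n * (r / (4 * (n + 1))) ^ 2 := by
      refine (Finset.sum_le_card_nsmul _ _ ((r / (4 * (n + 1))) ^ 2) fun l _ => ?_).trans_eq
        (by simp)
      exact pow_le_pow_left₀ (norm_nonneg _) ((norm_le_pi_norm (π x - b) l).trans
        (mem_ball_iff_norm.1 hb).le) 2
    have h2 : 16 / r ^ 2 * (n * (r / (4 * (n + 1))) ^ 2) = n / (n + 1) ^ 2 := by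
      field_simp
      ring
    have h3 : (n : ℝ) / (n + 1) ^ 2 ≤ 1 :=
      div_le_one_of_le₀ (by nlinarith [Nat.cast_nonneg (α := ℝ) n]) (by positivity)
    linarith [mul_le_mul_of_nonneg_left h1 (by positivity : 0 ≤ 16 / r ^ 2)]

end Vale.Agent.P301Z.Sec
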