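import Vale.Agent.P301Z.Sk
import Vale.Agent.P301Z.Sa.Hpt
import Vale.Agent.P301.H98.Sec
import Vale.Agent.P301.H450.QForm
import Vale.Agent.P301.H949.Stokes01
import Vale.Agent.P281Z.Mf.Loc

/-!
# P301Z, block SEC: a local Lagrangian fibration gives sections (definitions and rows)
-/

open scoped Manifold ContDiff Topology Matrix ENNReal
open Set Filter Metric MeasureTheory
open Vale.Agent.P272.K Vale.Agent.P301.H599 Vale.Agent.P301.H99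
open Vale.Agent.P272.K.INT (intX)
open Vale.Agent.P277Z (Hol)
open Vale.Agent.P277Z.Slc (Ind dd)
open Vale.Agent.P281Z (Mf)
open Vale.Agent.P301.H450 (IsCoForm)
open Vale.Agent.P301.H949 (Is01 del)
open Vale.Agent.P301.H98 (nrm ul cf Dc)
open Vale.Agent.P301Z.Sa

noncomputable section

namespace Vale.Agent.P301Z.Sec

/-- matrix fields in the charts -/
abbrev MF (d : ℕ) (X : Type) [TopologicalSpace X] : Type :=
  Chart d X → Cm d → Matrix (Fin d) (Fin d) ℂ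

section

variable {d : ℕ} {X : Type} [TopologicalSpace X] [ChartedSpace (Cm d) X] {ι : Type}

/-- the Hamiltonian vector of `f` -/
def hv (s : MF d X) (f : X → ℂ) (e : Chart d X) (x : X) : Fin d → ℂ :=
  gr f e x ᵥ* (s e (e x))⁻¹

/-- the matrix of `a ↦ |det s| Σ_l |a · X_l|²` -/
def En (s : MF d X) {n : ℕ} (π : X → Cm n) (e : Chart d X) (x : X) : Matrix (Fin d) (Fin d) ℂ :=
  ((‖(s e (e x)).det‖ : ℝ) : ℂ) •
    ∑ l, Matrix.vecMulVec (star (hv s (fun y => π y l) e x)) (hv s (fun y => π y l) e x)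

/-- `s` vanishes on the fibres of `π` -/
def Lag (s : MF d X) {n : ℕ} (O : Set X) (π : X → Cm n) : Prop :=
  ∀ x ∈ O, ∀ e, At e x → ∀ v v' : Fin d → ℂ, (∀ l, gr (fun y => π y l) e x ⬝ᵥ v = 0) →
    (∀ l, gr (fun y => π y l) e x ⬝ᵥ v' = 0) → v ⬝ᵥ (s e (e x) *ᵥ v') = 0

/-- `a` is exact on `O` -/
def Exa (a : MF d X) (O : Set X) : Prop :=
  ∃ γ γ' : Chart d X → Cm d → Fin d → ℂ, Is01 γ ∧ Is01 γ' ∧
    ∀ x ∈ O, ∀ e, At e x → a e (e x) = del γ e (e x) + (del γ' e (e x))ᴴ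

/-- `E = η En` is a closed form with support in `O` -/
structure Cut (s : MF d X) {n : ℕ} (O : Set X) (π : X → Cm n) (b : Cm n) (r : ℝ) (E : MF d X)
    (η : X → ℝ) : Prop where
  co : IsCoForm E
  eq : ∀ e x, At e x → E e (e x) = ((η x : ℝ) : ℂ) • En s π e x
  nn : ∀ x, 0 ≤ η x
  out : ∀ x, x ∉ O → η x = 0
  one : ∀ x ∈ O, π x ∈ ball b r → η x = 1

/-- the positive part of `i∂∂̄ log (|f|² + τ)`, paired with `E` -/
def Pd (L : LineBundle d X ι) (ρ : ι → X → ℝ) (f : ι → X → ℂ) (τ : ℝ) (E : MF d X) :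
    Chart d X → Cm d → ℝ := fun e z =>
  ((ddc (ul L ρ f τ) e z + ((nrm L ρ f (e.symm z) / (nrm L ρ f (e.symm z) + τ) : ℝ) : ℂ) •
    curvature L ρ e z) * E e z).trace.re

end

/-- a statement on all compact complex manifolds -/
def ForX (P : ∀ (d : ℕ) (X : Type) [TopologicalSpace X] [T2Space X] [CompactSpace X]
    [ConnectedSpace X] [ChartedSpace (Cm d) X] [IsManifold 𝓘(ℂ, Cm d) ω X], Prop) : Prop :=
  ∀ (d : ℕ) (X : Type) [TopologicalSpace X] [T2Space X] [CompactSpace X] [ConnectedSpace X]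
    [ChartedSpace (Cm d) X] [IsManifold 𝓘(ℂ, Cm d) ω X], P d X

/-- **TUB**: a Lagrangian fibration is a tube -/
def TUB : Prop := ∀ (n : ℕ) (V : Mf (n + n)) (s a : Lat.Fld V), IsHolTwoForm s →
  (∀ e x, At e x → (s e (e x)).det ≠ 0) → ∀ F : LagFib V s a,
    Tube s F.U F.π 0 1 ∧ Lag s F.U F.π

/-- **EXC**: the exactness in terms of one-forms -/
def EXC : Prop := ∀ (n : ℕ) (V : Mf (n + n)) (s a : Lat.Fld V) (F : LagFib V s a), Exa a F.U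

/-- **COF**: the closed form of a tube -/
def COF : Prop := ForX fun d X _ _ _ _ _ _ => ∀ (w s : MF d X), IsSymplectic d X w s →
  ∀ (n : ℕ) (O : Set X) (π : X → Cm n) (b : Cm n) (r : ℝ), Tube s O π b r →
    ∃ (r' : ℝ) (E : MF d X) (η : X → ℝ), 0 < r' ∧ r' ≤ r ∧ Cut s O π b r' E η

/-- **STK**: Stokes -/
def STK : Prop := ForX fun d X _ _ _ _ _ _ => ∀ (a E : MF d X) (O : Set X), IsCoForm E →
  (∀ e x, At e x → (E e (e x)).IsHermitian) → (∀ e x, At e x → x ∉ O → E e (e x) = 0) →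
  Exa a O → intX (fun e z => (a e z * E e z).trace.re) = 0

/-- **LIM**: the mass of the positive part tends to zero -/
def LIM : Prop := ForX fun d X _ _ _ _ _ _ => ∀ (ι : Type) (L : LineBundle d X ι)
  (ρ : ι → X → ℝ) (f : ι → X → ℂ) (E : MF d X), IsMetric L ρ → Sec L 1 f →
  (∃ i x, x ∈ L.U i ∧ f i x ≠ 0) → IsCoForm E →
  intX (fun e z => (curvature L ρ e z * E e z).trace.re) = 0 →
  Tendsto (fun τ => intX (Pd L ρ f τ E)) (𝓝[>] 0) (𝓝 0)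

/-- **JEN**: a zero on a line gives mass -/
def JEN : Prop := ∀ (d : ℕ) (f : Cm d → ℂ) (ρ : Cm d → ℝ) (a v : Cm d) (R : ℝ), 0 < R →
  (∀ z ∈ ball a R, AnalyticAt ℂ f z) → (∀ z ∈ ball a R, ContDiffAt ℝ ∞ ρ z) → f a = 0 →
  (¬ ∀ᶠ ζ in 𝓝 (0 : ℂ), f (a + ζ • v) = 0) → ∃ c : ℝ, 0 < c ∧ ∀ᶠ τ in 𝓝[>] (0 : ℝ),
    ENNReal.ofReal c ≤ ∫⁻ z in ball a R, ENNReal.ofReal (cf f ρ τ z * ‖v ⬝ᵥ Dc f ρ z‖ ^ 2)

/-- **PRC**: coordinates of product type and the comparison of vertical vectors -/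
def PRC : Prop := ForX fun d X _ _ _ _ _ _ => ∀ (s : MF d X), IsHolTwoForm s →
  (∀ e x, At e x → (s e (e x)).det ≠ 0) → ∀ (n : ℕ) (O : Set X) (π : X → Cm n) (b : Cm n) (r : ℝ),
  Tube s O π b r → Lag s O π → ∀ (e : Chart d X) (p : X), At e p → p ∈ O →
  ∃ (Ψ : Cm d → Cm d) (W : Submodule ℂ (Cm d)) (R C : ℝ), 0 < R ∧ 0 < C ∧ Ψ 0 = e p ∧
    (∀ y ∈ ball (0 : Cm d) R, AnalyticAt ℂ Ψ y) ∧ InjOn Ψ (ball 0 R) ∧
    (∀ y ∈ ball (0 : Cm d) R, Ψ y ∈ e.target ∧ e.symm (Ψ y) ∈ O) ∧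
    (∀ N ∈ 𝓝 (0 : Cm d), ∀ᶠ x in 𝓝 p, π x = π p → ∃ y ∈ N, y ∈ W ∧ Ψ y = e x) ∧
    ∀ y ∈ ball (0 : Cm d) R, ∀ v ∈ W, ∀ a : Fin d → ℂ,
      ‖fderiv ℂ Ψ y v ⬝ᵥ a‖ ^ 2 ≤ C * ‖v‖ ^ 2 * |((fderiv ℂ Ψ y).restrictScalars ℝ).det| *
        (Matrix.vecMulVec a (star a) * En s π e (e.symm (Ψ y))).trace.re

/-- **TRF**: a section with a zero in the tube vanishes along the fibre -/
def TRF : Prop := ForX fun d X _ _ _ _ _ _ => ∀ (s : MF d X), IsHolTwoForm s →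
  (∀ e x, At e x → (s e (e x)).det ≠ 0) → ∀ (n : ℕ) (O : Set X) (π : X → Cm n) (b : Cm n)
  (r r' : ℝ) (E : MF d X) (η : X → ℝ), Tube s O π b r → Lag s O π → Cut s O π b r' E η →
  ∀ (ι : Type) (L : LineBundle d X ι) (ρ : ι → X → ℝ) (f : ι → X → ℂ), IsMetric L ρ → Sec L 1 f →
  Tendsto (fun τ => intX (Pd L ρ f τ E)) (𝓝[>] 0) (𝓝 0) →
  ∀ p ∈ O, π p ∈ ball b r' → ∀ i, p ∈ L.U i → f i p = 0 → ∀ᶠ x in 𝓝 p, π x = π p → f i x = 0

/-- **SUB**: a smaller tube without zeros -/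
def SUB : Prop := ForX fun d X _ _ _ _ _ _ => ∀ (s : MF d X) (n : ℕ) (O : Set X) (π : X → Cm n)
  (b : Cm n) (r r' : ℝ), Tube s O π b r → 0 < r' → r' ≤ r →
  ∀ (ι : Type) (L : LineBundle d X ι) (K : ℕ) (f : ι → X → ℂ), 0 < K → Sec L K f →
  (∃ i x, x ∈ L.U i ∧ f i x ≠ 0) →
  (∀ p ∈ O, π p ∈ ball b r' → ∀ i, p ∈ L.U i → f i p = 0 → ∀ᶠ x in 𝓝 p, π x = π p → f i x = 0) →
  ∃ (U : Set X) (g : Fin n → X → ℂ) (x : X), Loc s L n U g K f ∅ ∧ x ∈ U ∧ (∀ j, g j x = 0) ∧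
    Ind d g x

/-- **ORD**: a finite weighted integral forces a zero of order two -/
def ORD : Prop := ∀ (d : ℕ) (h : Cm d → ℂ) (a : Cm d) (K R : ℝ), 0 < d → 0 < R →
  DifferentiableAt ℂ h a → (d : ℝ) + 2 ≤ K →
  ∫⁻ z in ball a R, ENNReal.ofReal (‖h z‖ ^ 2 * (‖z - a‖ ^ 2) ^ (-K)) ≠ ⊤ →
  h a = 0 ∧ fderiv ℂ h a = 0

/-- **HJT**: Lemma H with jets of order one -/
def HJT : Prop := ForS fun d n X _ _ s ι L => ∀ (U : Set X) (r : ℕ) (g : Fin r → X → ℂ) (a : ℕ)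
  (e : ι → X → ℂ) (T : Set X), Loc s L n U g a e T → ∀ x ∈ U, (∀ j, g j x = 0) →
    ∃ m : ℕ, 0 < m ∧ ∀ F : X → ℂ, (∀ y ∈ U, Hol d F y) → ∃ σ : ι → X → ℂ, Sec L (a * m) σ ∧
      ∀ i, x ∈ L.U i → σ i x = F x * e i x ^ m ∧
        ∀ c : Chart d X, At c x → dd (σ i) c x = dd (fun y => F y * e i y ^ m) c x

/-- **MON**: monomials in independent sections -/
def MON : Prop := ForX fun d X _ _ _ _ _ _ => ∀ (n : ℕ) (ι : Type) (L : LineBundle d X ι) (M : ℕ)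
  (σ₀ : ι → X → ℂ) (σ : Fin n → ι → X → ℂ) (x : X) (i : ι), d = n + n → 0 < M → Sec L M σ₀ →
  (∀ j, Sec L M (σ j)) → x ∈ L.U i → σ₀ i x ≠ 0 → Ind d (fun j y => σ j i y / σ₀ i y) x →
  Semi.Grow L n

end Vale.Agent.P301Z.Sec
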