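import Vale.Agent.P301Z.Sec.Defs
import Vale.Agent.P301Z.Rot.F2

/-!
# P301Z, block SEC: exactness in terms of one-forms
-/

open scoped Manifold ContDiff Topology Matrix
open Vale.Agent.P272.K Vale.Agent.P299.IX Vale.Agent.P299.IX.Fock
open Vale.Agent.P281Z.Hg Vale.Agent.P301Z.Rot
open Vale.Agent.P281Z (Mf)
open Vale.Agent.P301.H949 (Is01 del)

noncomputable section

namespace Vale.Agent.P301Z.Sec

namespace Exc

/-- the coefficients of degree one -/
def b1 {m : ℕ} (u : Fk m) (c : Fin m) : ℂ := (iot c *ᵥ u) ∅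

theorem b1_lam {m : ℕ} (J : Matrix (Fin m) (Fin m) ℂ) (u : Fk m) (c : Fin m) :
    b1 (lam J *ᵥ u) c = ∑ p, J c p * b1 u p := by
  rw [b1, ← iotV_single, Matrix.mulVec_mulVec, iotV_lam, ← Matrix.mulVec_mulVec, lam_empty,
    Matrix.single_one_vecMul, iotV, Matrix.sum_mulVec, Finset.sum_apply]
  exact Finset.sum_congr rfl fun p _ => by rw [Matrix.smul_mulVec]; rfl

variable {d : ℕ}

theorem b1_cd {u : Cm d → Fo d} {z : Cm d} (hu : ContDiffAt ℝ ∞ u z) (c) :
    ContDiffAt ℝ ∞ (fun y => b1 (u y) c) z := contDiffAt_pi.1 (Ka.cd_mul _ hu) ∅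

theorem m2_dT {u : Cm d → Fo d} {z : Cm d} (hu : DifferentiableAt ℝ u z) (a c) :
    m2 (dT u z) a c = dr a (fun y => b1 (u y) c) z - dr c (fun y => b1 (u y) a) z := by
  have h : ∀ p q, dr p (fun y => b1 (u y) q) z = (iotV (Pi.single q 1) *ᵥ Dv p u z) ∅ :=
    fun p q => by
      rw [iotV_single, ← Ka.Dv_mul _ hu]
      rfl
  rw [← ev2_single, h, h]
  simp only [Rot.ev2, dT, Matrix.mulVec_sum, Finset.sum_apply, iotV_eps_mv, Matrix.mulVec_sub,
    Matrix.mulVec_smul, Pi.sub_apply, Pi.smul_apply, smul_eq_mul, eps_mulVec_empty,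
    Finset.sum_sub_distrib]
  simp [Pi.single_apply]

theorem m2_f11 (A : Matrix (Fin d) (Fin d) ℂ) (j k : Fin d) :
    m2 (Lat.f11 A) (hl j) (ah k) = Complex.I * A j k :=
  congrFun (congrFun (blocks_of (u := Lat.f11 A) (A := 0) (B := Complex.I • A) (D := 0)
    fun v v' => by
      rw [Lat.f11, bv_om]
      simp only [Matrix.zero_mulVec, dotProduct_zero, Matrix.smul_mulVec, dotProduct_smul,
        smul_eq_mul]
      ring).2.1 j) k

end Exc

open Exc in
theorem exc : EXC := by
  intro n V s a F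
  have hu := vl_isF F.β
  refine ⟨fun e z k => -Complex.I * b1 (vl F.β e z) (ah k),
    fun e z j => -Complex.I * (starRingEnd ℂ) (b1 (vl F.β e z) (hl j)),
    ⟨fun e x h l => contDiffAt_const.mul (b1_cd (hu.sm e x h) _), fun e e' x h h' l => ?_⟩,
    ⟨fun e x h l => contDiffAt_const.mul
      (Complex.conjCLE.contDiff.contDiffAt.comp _ (b1_cd (hu.sm e x h) _)),
      fun e e' x h h' l => ?_⟩, fun x hx e h => ?_⟩
  · rw [hu.ch e e' x h h', b1_lam, (g1T _ V.X).jt_eq e e' x h h', Ka.sum_idx]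
    simp only [F1bH.blk_ah, F1bH.blk_aa, zero_mul, Finset.sum_const_zero, zero_add, Finset.mul_sum]
    exact Finset.sum_congr rfl fun q _ => by
      rw [Matrix.map_apply, Matrix.transpose_apply, Complex.star_def]
      ring
  · rw [hu.ch e e' x h h', b1_lam, (g1T _ V.X).jt_eq e e' x h h', Ka.sum_idx]
    simp only [F1bH.blk_ha, F1bH.blk_hh, zero_mul, Finset.sum_const_zero, add_zero, map_sum,
      map_mul, Finset.mul_sum]
    exact Finset.sum_congr rfl fun q _ => by
      rw [Matrix.transpose_apply]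
      ring
  · ext j k
    have hd : ∀ c, DifferentiableAt ℝ (fun y => b1 (vl F.β e y) c) (e x) := fun c =>
      (b1_cd (hu.sm e x h) c).differentiableAt (by simp)
    have h1 := m2_dT ((hu.sm e x h).differentiableAt (by simp)) (hl j) (ah k)
    rw [← (Lat.dR_real V).d _ e x h, F.exact x hx e h, m2_f11, Ka.dr_hl, Ka.dr_ah] at h1
    rw [Matrix.add_apply, Matrix.conjTranspose_apply, del, del, Matrix.of_apply, Matrix.of_apply,
      C2.dz_const_mul _ _ (hd _), C2.dz_const_mul _ _ (C2.differentiableAt_conj (hd _)),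
      C2.dz_conj _ (hd _), Complex.star_def, map_mul, map_neg, Complex.conj_I, Complex.conj_conj]
    linear_combination (-Complex.I) * h1 + a e (e x) j k * Complex.I_sq

end Vale.Agent.P301Z.Sec
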