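import Vale.Agent.P301Z.Sec.Defs
import Vale.Agent.P301Z.Ho.Defs

/-!
# P301Z, block SEC: jets from Lemma H
-/

open scoped Manifold ContDiff Topology ENNReal
open Set Filter Metric MeasureTheory
open Vale.Agent.P272.K Vale.Agent.P301.H599 Vale.Agent.P301.H99
open Vale.Agent.P277Z (Hol)
open Vale.Agent.P277Z.Slc (dd)
open Vale.Agent.P301Z.Sa Vale.Agent.P301Z.Ho

noncomputable section

namespace Vale.Agent.P301Z.Sec

namespace Hjt

variable {d : ℕ} {h : Cm d → ℂ} {q : Cm d → ℝ} {a : Cm d} {N : ℕ} {A : ℝ}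

theorem key (hA : 0 < A) (hq : ∀ᶠ z in 𝓝 a, 0 ≤ q z ∧ q z ≤ A * ‖z - a‖ ^ 2) (hN : d + 2 ≤ N)
    (hP : Pl h q N a) {v : Cm d} {c ε : ℝ} (hε : 0 < ε) (hc : 0 < c) (hv : ‖v‖ + ε ≤ 1)
    (hl : ∀ᶠ t in 𝓝[>] (0 : ℝ), ∀ z ∈ ball (a + t • v) (t * ε), c * t ≤ ‖h z‖) : False := by
  obtain ⟨V, hV, C, hC, hI⟩ := hP
  obtain ⟨r, hr, hb⟩ := Metric.eventually_nhds_iff_ball.1 (hq.and hV)
  set B : ℝ≥0∞ := volume (ball (0 : Cm d) 1) with hB
  have hB0 : B ≠ 0 := (measure_ball_pos volume _ one_pos).ne'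
  have hBt : B ≠ ⊤ := measure_ball_lt_top.ne
  set c' : ℝ := c ^ 2 * ε ^ (2 * d) / (A + 1) ^ N with hc'
  have hc0 : 0 < c' := by positivity
  have h1 : Tendsto (fun t : ℝ => c' * t⁻¹) (𝓝[>] 0) atTop :=
    tendsto_inv_nhdsGT_zero.const_mul_atTop hc0
  obtain ⟨t, ⟨⟨k1, k2⟩, k3⟩, k4⟩ := (((hl.and (h1.eventually_gt_atTop (C / B).toReal)).and
    (Ioo_mem_nhdsGT hr)).and (Ioo_mem_nhdsGT one_pos)).exists
  have ht : 0 < t := k3.1
  have hz : ∀ z ∈ ball (a + t • v) (t * ε), ‖z - a‖ < t := fun z hz => by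
    have e1 : z - a = (z - (a + t • v)) + t • v := by abel
    rw [mem_ball, dist_eq_norm] at hz
    calc ‖z - a‖ ≤ ‖z - (a + t • v)‖ + ‖t • v‖ := by rw [e1]; exact norm_add_le _ _
      _ < t * ε + t * ‖v‖ := by rw [norm_smul, Real.norm_of_nonneg ht.le]; linarith
      _ ≤ t := by nlinarith
  have hzb : ∀ z ∈ ball (a + t • v) (t * ε), z ∈ ball a r := fun z h' => by
    rw [mem_ball, dist_eq_norm]
    exact (hz z h').trans k3.2
  have h2 : ∀ z ∈ ball (a + t • v) (t * ε), ENNReal.ofReal ((c * t) ^ 2 / ((A + 1) * t ^ 2) ^ N) ≤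
      ENNReal.ofReal (‖h z‖ ^ 2 / (q z + t ^ 2) ^ N) := fun z h' => by
    have j1 := (hb z (hzb z h')).1
    have j2 : ‖z - a‖ ^ 2 ≤ t ^ 2 := pow_le_pow_left₀ (norm_nonneg _) (hz z h').le 2
    have j3 : q z + t ^ 2 ≤ (A + 1) * t ^ 2 := by nlinarith [j1.2]
    have j4 : 0 < q z + t ^ 2 := by have := j1.1; positivity
    refine ENNReal.ofReal_le_ofReal ?_
    gcongr
    exact k1 z h'
  have h3 : ENNReal.ofReal ((c * t) ^ 2 / ((A + 1) * t ^ 2) ^ N) *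
      volume (ball (a + t • v) (t * ε)) ≤ C := by
    rw [← setLIntegral_const]
    refine ((setLIntegral_mono' measurableSet_ball h2).trans (lintegral_mono_set ?_)).trans
      (hI (t ^ 2) (by positivity))
    exact fun z h' => (hb z (hzb z h')).2
  have hd : Module.finrank ℝ (Cm d) = 2 * d := by
    rw [Module.finrank_pi_fintype, Finset.sum_const, Finset.card_univ, Fintype.card_fin,
      Complex.finrank_real_complex, smul_eq_mul, mul_comm]
  rw [Measure.addHaar_ball_of_pos volume _ (by positivity), hd, ← hB, ← mul_assoc,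
    ← ENNReal.ofReal_mul (by positivity), ← ENNReal.le_div_iff_mul_le (Or.inl hB0) (Or.inl hBt),
    ENNReal.ofReal_le_iff_le_toReal (ENNReal.div_ne_top hC hB0)] at h3
  obtain ⟨k, rfl⟩ := Nat.exists_eq_add_of_le hN
  have h4 : (c * t) ^ 2 / ((A + 1) * t ^ 2) ^ (d + 2 + k) * (t * ε) ^ (2 * d) =
      c' * t⁻¹ * (t⁻¹) ^ (2 * k + 1) := by
    rw [hc', mul_pow (A + 1), mul_pow t ε, inv_pow, ← pow_mul]
    generalize (A + 1) ^ (d + 2 + k) = P
    field_simp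
    ring
  have h5 : 1 ≤ (t⁻¹) ^ (2 * k + 1) := one_le_pow₀ ((one_le_inv₀ ht).2 k4.2.le)
  have h6 : 0 < c' * t⁻¹ := by positivity
  rw [h4] at h3
  nlinarith

/-- a finite weighted integral forces a zero of order two -/
theorem ord (hh : DifferentiableAt ℂ h a) (hA : 0 < A)
    (hq : ∀ᶠ z in 𝓝 a, 0 ≤ q z ∧ q z ≤ A * ‖z - a‖ ^ 2) (hN : d + 2 ≤ N) (hP : Pl h q N a) :
    h a = 0 ∧ fderiv ℂ h a = 0 := by
  have h0 : h a = 0 := by
    by_contra hne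
    have hc : 0 < ‖h a‖ / 2 := half_pos (norm_pos_iff.2 hne)
    have h1 : ∀ᶠ z in 𝓝 a, ‖h a‖ / 2 < ‖h z‖ :=
      hh.continuousAt.norm.eventually (lt_mem_nhds (half_lt_self (norm_pos_iff.2 hne)))
    obtain ⟨r, hr, hb⟩ := Metric.eventually_nhds_iff_ball.1 h1
    refine key hA hq hN hP (v := 0) one_pos hc (by simp) ?_
    filter_upwards [Ioo_mem_nhdsGT hr, Ioo_mem_nhdsGT one_pos] with t k1 k2 z hz
    rw [smul_zero, add_zero, mul_one] at hz
    have := hb z (ball_subset_ball k1.2.le hz)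
    nlinarith [k2.2]
  refine ⟨h0, ?_⟩
  by_contra hne
  set D := fderiv ℂ h a with hD
  obtain ⟨v, hv, hv0⟩ : ∃ v : Cm d, ‖v‖ ≤ 1 / 2 ∧ D v ≠ 0 := by
    obtain ⟨u, hu⟩ : ∃ u, D u ≠ 0 := by
      by_contra hcon
      exact hne (ContinuousLinearMap.ext fun u => not_not.1 fun k => hcon ⟨u, k⟩)
    have hu0 : 0 < ‖u‖ := norm_pos_iff.2 fun k => hu (by rw [k, map_zero])
    refine ⟨(((2 * ‖u‖)⁻¹ : ℝ) : ℂ) • u, ?_, ?_⟩
    · rw [norm_smul, Complex.norm_real, Real.norm_of_nonneg (by positivity)]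
      exact le_of_eq (by field_simp)
    · rw [map_smul]
      exact smul_ne_zero (Complex.ofReal_ne_zero.2 (by positivity)) hu
  set c := ‖D v‖ / 4 with hc
  have hc0 : 0 < c := by have := norm_pos_iff.2 hv0; positivity
  have hD0 : 0 < ‖D‖ := norm_pos_iff.2 hne
  set ε := min (1 / 2) (c / ‖D‖) with hε
  have hε0 : 0 < ε := lt_min (by norm_num) (by positivity)
  have hε1 : ‖D‖ * ε ≤ c := by
    rw [mul_comm, ← le_div_iff₀ hD0]
    exact min_le_right _ _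
  have hε2 : ε ≤ 1 / 2 := min_le_left _ _
  obtain ⟨r, hr, hb⟩ := Metric.eventually_nhds_iff_ball.1 (hh.hasFDerivAt.isLittleO.bound hc0)
  refine key hA hq hN hP (v := v) hε0 hc0 (by linarith) ?_
  filter_upwards [Ioo_mem_nhdsGT hr] with t k1 z hz
  have ht := k1.1
  rw [mem_ball, dist_eq_norm] at hz
  have e1 : z - a = (z - (a + t • v)) + t • v := by abel
  have j1 : ‖z - a‖ ≤ t := by
    calc ‖z - a‖ ≤ ‖z - (a + t • v)‖ + ‖t • v‖ := by rw [e1]; exact norm_add_le _ _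
      _ ≤ t * ε + t * ‖v‖ := by rw [norm_smul, Real.norm_of_nonneg ht.le]; linarith
      _ ≤ t := by nlinarith
  have j2 := hb z (by rw [mem_ball, dist_eq_norm]; exact j1.trans_lt k1.2)
  rw [h0, sub_zero, ← hD] at j2
  have j3 : ‖D (z - (a + t • v))‖ ≤ c * t := by
    calc _ ≤ ‖D‖ * ‖z - (a + t • v)‖ := D.le_opNorm _
      _ ≤ ‖D‖ * (t * ε) := by gcongr
      _ ≤ c * t := by nlinarith
  have j4 : ‖D (t • v)‖ = t * ‖D v‖ := by
    rw [D.map_smul_of_tower, norm_smul, Real.norm_of_nonneg ht.le]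
  have j5 : D (t • v) = h z - (h z - D (z - a)) - D (z - (a + t • v)) := by
    rw [sub_sub_cancel, ← map_sub]
    congr 1
    abel
  have j6 : ‖D (t • v)‖ ≤ ‖h z‖ + ‖h z - D (z - a)‖ + ‖D (z - (a + t • v))‖ := by
    rw [j5]
    exact (norm_sub_le _ _).trans (by gcongr; exact norm_sub_le _ _)
  have j7 : c * ‖z - a‖ ≤ c * t := by gcongr
  have j8 : t * ‖D v‖ = 4 * (c * t) := by rw [hc]; ring
  have j9 : 0 < c * t := by positivity
  linarith

/-- holomorphic functions with a zero are bounded by the distance -/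
theorem sq_le {r : ℕ} {g : Fin r → Cm d → ℂ} (hg : ∀ k, DifferentiableAt ℂ (g k) a)
    (h0 : ∀ k, g k a = 0) : ∃ A : ℝ, 0 < A ∧
      ∀ᶠ z in 𝓝 a, 0 ≤ ∑ k, ‖g k z‖ ^ 2 ∧ ∑ k, ‖g k z‖ ^ 2 ≤ A * ‖z - a‖ ^ 2 := by
  choose c hc using fun k => (hg k).isBigO_sub.bound
  refine ⟨∑ k, c k ^ 2 + 1, by positivity, ?_⟩
  filter_upwards [eventually_all.2 hc] with z hz
  refine ⟨by positivity, ?_⟩
  rw [add_mul, Finset.sum_mul]
  refine le_add_of_le_of_nonneg (Finset.sum_le_sum fun k _ => ?_) (by positivity)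
  have := hz k
  rw [h0, sub_zero] at this
  rw [← mul_pow]
  exact pow_le_pow_left₀ (norm_nonneg _) this 2

end Hjt

theorem hjt_of (H : HL2) : HJT := by
  intro d n X _ _ _ _ _ _ w s hd hs ι L ρ hρ hn h0 hne U r g a e T hloc x hx hg
  obtain ⟨c, hc, h1⟩ := H d n X w s hd hs ι L ρ hρ hn h0 hne U r g a e T hloc
  obtain ⟨m, hm⟩ := exists_nat_ge ((d + 2 : ℝ) / c)
  refine ⟨m + 1, m.succ_pos, fun F hF => ?_⟩
  obtain ⟨σ, h2, h3⟩ := h1 (m + 1) m.succ_pos F hF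
  refine ⟨σ, h2, fun i hi => ?_⟩
  have hN : ((d + 2 : ℕ) : ℝ) ≤ c * ((a * (m + 1) : ℕ) - 1) := by
    have k1 : (1 : ℝ) ≤ a := by exact_mod_cast hloc.pos
    rw [div_le_iff₀ hc] at hm
    push_cast
    nlinarith [mul_nonneg hc.le (mul_nonneg (sub_nonneg.2 k1) (by positivity : (0 : ℝ) ≤ m + 1))]
  have hE : Hol d (fun y => F y * e i y ^ (m + 1)) x := fun k hk =>
    (hF x hx k hk).fun_mul ((hloc.gen.hol i x hx hi k hk).fun_pow _)
  have h4 : ∀ k : Chart d X, At k x → σ i x = F x * e i x ^ (m + 1) ∧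
      dd (σ i) k x = dd (fun y => F y * e i y ^ (m + 1)) k x := by
    intro k hk
    have k1 := (h2.1 i k x hk hi).differentiableAt
    have k2 := (hE k hk).differentiableAt
    obtain ⟨A, hA, hq⟩ := Hjt.sq_le (g := fun j z => g j (k.symm z))
      (fun j => (hloc.hol j x hx k hk).differentiableAt) fun j => by rw [hk.left_inv, hg]
    obtain ⟨k3, k4⟩ := Hjt.ord (k1.fun_sub k2) hA hq le_rfl
      (h3 (d + 2) hN x hx (by simp [Ho.sq, hg]) i k hk hi)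
    rw [fderiv_fun_sub k1 k2] at k4
    simp only [hk.left_inv] at k3
    exact ⟨sub_eq_zero.1 k3, sub_eq_zero.1 k4⟩
  exact ⟨(h4 _ (P277Z.Slc.at_chartAt x)).1, fun k hk => (h4 k hk).2⟩

theorem hpt_of (H : HJT) : HPT := by
  intro d n X _ _ _ _ _ _ w s hd hs ι L ρ hρ hn h0 hne U r g a e T hloc x hx hg
  obtain ⟨m, hm, h1⟩ := H d n X w s hd hs ι L ρ hρ hn h0 hne U r g a e T hloc x hx hg
  obtain ⟨σ, h2, h3⟩ := h1 (fun _ => 1) fun _ _ _ _ => analyticAt_const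
  obtain ⟨i, hi⟩ := L.cover x
  refine ⟨a * m, Nat.mul_pos hloc.pos hm, σ, h2, i, hi, ?_⟩
  rw [(h3 i hi).1, one_mul]
  exact pow_ne_zero _ (hloc.gen.ne i x hx hi)

end Vale.Agent.P301Z.Sec
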