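import Vale.Agent.P301Z.Sec.Defs
import Vale.Agent.P301.H98.Dir
import Vale.Agent.P301.H794.Circle
import Vale.Agent.P272.K.QN.H86.Poly
import Vale.Agent.P272.K.N.Hess

/-!
# P301Z, block SEC, row JEN: a zero on a line gives mass
-/

open scoped ContDiff Topology ENNReal Real
open Set Filter Metric MeasureTheory Complex
open Vale.Agent.P272.K Vale.Agent.P272.K.QN.H86 Vale.Agent.P301.H98 Vale.Agent.P301.H794

noncomputable section

namespace Vale.Agent.P301Z.Sec

namespace Jen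

variable {d : ℕ}

theorem line_c2 {h : Cm d → ℝ} {y w : Cm d} {ζ : ℂ} (hh : ContDiffAt ℝ 2 h (y + ζ • w)) :
    ContDiffAt ℝ 2 (fun ζ : ℂ => h (y + ζ • w)) ζ :=
  hh.comp ζ (f := fun ζ : ℂ => y + ζ • w) (contDiffAt_const.add (contDiffAt_id.smul contDiffAt_const))

theorem lap_line {h : Cm d → ℝ} {y w : Cm d} {ζ : ℂ} (hh : ContDiffAt ℝ 2 h (y + ζ • w)) :
    Lap (fun ζ : ℂ => h (y + ζ • w)) ζ = 4 * (lv w h (y + ζ • w)).re := by
  set L : ℂ →L[ℝ] Cm d := (ContinuousLinearMap.toSpanSingleton ℂ w).restrictScalars ℝ with hL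
  have hLa : ∀ ζ, L ζ = ζ • w := fun ζ => by simp [hL]
  have e : (fun ζ : ℂ => h (y + ζ • w)) = fun ζ => h (y + L ζ) := by simp only [hLa]
  rw [← hLa] at hh ⊢
  have hd : DifferentiableAt ℝ (fderiv ℝ h) (y + L ζ) :=
    (hh.fderiv_right (m := 1) (by norm_num)).differentiableAt (by norm_num)
  have hsym : ∀ v w, fderiv ℝ (fderiv ℝ h) (y + L ζ) v w = fderiv ℝ (fderiv ℝ h) (y + L ζ) w v :=
    fun v w => hh.isSymmSndFDerivAt (by simp) v w
  have h1 := N.lev_quadratic hsym (star w)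
  rw [star_star, ← N.cHess_eq_lev hd] at h1
  have h2 : lv w h (y + L ζ) = w ⬝ᵥ (cHess h (y + L ζ)).mulVec (star w) := by
    unfold lv
    simp only [dotProduct, Matrix.mulVec, Finset.mul_sum, Pi.star_apply, RCLike.star_def]
    exact Finset.sum_congr rfl fun j _ => Finset.sum_congr rfl fun k _ => by ring
  unfold Lap
  rw [e, fderiv2_affine L y hh, fderiv2_affine L y hh, h2, h1, ofReal_re, hLa 1, hLa I, one_smul]
  ring

theorem ofReal_integral_le {α : Type*} [MeasurableSpace α] (μ : Measure α) {g : α → ℝ}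
    (hg : ∀ x, 0 ≤ g x) : ENNReal.ofReal (∫ x, g x ∂μ) ≤ ∫⁻ x, ENNReal.ofReal (g x) ∂μ := by
  rw [← Real.enorm_eq_ofReal (integral_nonneg hg)]
  refine (enorm_integral_le_lintegral_enorm _).trans (le_of_eq ?_)
  exact lintegral_congr fun x => Real.enorm_eq_ofReal (hg x)

/-- Jensen's formula on one disc -/
theorem disc {f : Cm d → ℂ} {ρ : Cm d → ℝ} {y w : Cm d} {τ δ M : ℝ} (hτ : 0 < τ) (hδ : 0 < δ)
    (hf : ∀ ζ ∈ closedBall (0 : ℂ) 1, AnalyticAt ℂ f (y + ζ • w))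
    (hρ : ∀ ζ ∈ closedBall (0 : ℂ) 1, ContDiffAt ℝ ∞ ρ (y + ζ • w))
    (hM : ∀ ζ ∈ closedBall (0 : ℂ) 1, ‖lv w ρ (y + ζ • w)‖ ≤ M)
    (hN : ∀ ζ ∈ sphere (0 : ℂ) 1, δ ≤ nh f ρ (y + ζ • w)) :
    2 * π * (Real.log δ - Real.log (nh f ρ y + τ)) ≤
      4 * (∫ t in (0 : ℝ)..1, ∫ θ in (-π)..π,
        gv f ρ τ w (y + ((t : ℂ) * cexp (θ * I)) • w)) + 8 * π * M := by
  have hρ2 : ∀ ζ ∈ closedBall (0 : ℂ) 1, ContDiffAt ℝ 2 ρ (y + ζ • w) :=
    fun ζ hζ => (hρ ζ hζ).of_le (by norm_cast)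
  have hl : ∀ ζ ∈ closedBall (0 : ℂ) 1, ContDiffAt ℝ 2 (lg f ρ τ) (y + ζ • w) :=
    fun ζ hζ => contDiff_lg (m := 2) (hf ζ hζ) (hρ2 ζ hζ) hτ
  set u : ℂ → ℝ := fun ζ => lg f ρ τ (y + ζ • w) with hu'
  have hu : ∀ ζ ∈ closedBall (0 : ℂ) 1, ContDiffAt ℝ 2 u ζ := fun ζ hζ => line_c2 (hl ζ hζ)
  have hM0 : 0 ≤ M := (norm_nonneg _).trans (hM 0 (mem_closedBall_self zero_le_one))
  have hpi := Real.pi_pos
  set G : ℂ → ℝ := fun ζ => gv f ρ τ w (y + ζ • w) with hG
  have hGc : ContinuousOn G (closedBall (0 : ℂ) 1) := fun ζ hζ =>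
    ((continuousAt_gv (hf ζ hζ) (hρ ζ hζ) hτ w).comp (f := fun ζ : ℂ => y + ζ • w)
      (by fun_prop)).continuousWithinAt
  have hG0 : ∀ ζ, 0 ≤ G ζ := fun ζ => gv_nonneg hτ.le _ _
  have hLap : ∀ ζ ∈ closedBall (0 : ℂ) 1, Lap u ζ ≤ 4 * G ζ + 4 * M := by
    intro ζ hζ
    rw [hu', lap_line (hl ζ hζ), lv_lg (hf ζ hζ) (hρ2 ζ hζ) hτ, sub_re, ofReal_re, re_ofReal_mul]
    have h1 := nh_nonneg f ρ (y + ζ • w)
    have h2 : nh f ρ (y + ζ • w) / (nh f ρ (y + ζ • w) + τ) ≤ 1 := by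
      rw [div_le_one (by linarith)]
      linarith
    have h3 : 0 ≤ nh f ρ (y + ζ • w) / (nh f ρ (y + ζ • w) + τ) := by positivity
    have h4 := (abs_le.1 ((abs_re_le_norm _).trans (hM ζ hζ))).1
    have h5 := mul_le_mul_of_nonneg_left h4 h3
    have h6 := mul_le_mul_of_nonneg_right h2 hM0
    simp only [hG]
    linarith
  have hint : ∀ {g : ℂ → ℝ}, ContinuousOn g (closedBall (0 : ℂ) 1) → ∀ t ∈ Icc (0 : ℝ) 1,
      IntervalIntegrable (fun θ : ℝ => g ((t : ℂ) * cexp (θ * I))) volume (-π) π :=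
    fun hg t ht => ContinuousOn.intervalIntegrable
      (hg.comp (by fun_prop) fun θ _ => mem_disc ht θ)
  set B : ℝ → ℝ := fun t => ∫ θ in (-π)..π, G ((t : ℂ) * cexp (θ * I)) with hB
  have hBc : ContinuousOn B (Icc (0 : ℝ) 1) :=
    cont_param (F := fun t θ => G ((t : ℂ) * cexp (θ * I))) (hGc.comp (by fun_prop) (maps_disc hu))
  have hB0 : ∀ t, 0 ≤ B t := fun t =>
    intervalIntegral.integral_nonneg neg_pi_le_pi fun θ _ => hG0 _
  have hBi : IntervalIntegrable B volume 0 1 := by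
    refine ContinuousOn.intervalIntegrable ?_
    rwa [uIcc_of_le zero_le_one]
  have hLl : ∀ t ∈ Icc (0 : ℝ) 1, Ll u t ≤ 4 * B t + 8 * π * M := by
    intro t ht
    have h1 : Ll u t ≤ ∫ θ in (-π)..π, (4 * G ((t : ℂ) * cexp (θ * I)) + 4 * M) :=
      intervalIntegral.integral_mono_on neg_pi_le_pi (hint (cont_Lap hu) t ht)
        (((hint hGc t ht).const_mul 4).add intervalIntegrable_const)
        fun θ _ => hLap _ (mem_disc ht θ)
    rw [intervalIntegral.integral_add ((hint hGc t ht).const_mul 4) intervalIntegrable_const,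
      intervalIntegral.integral_const_mul, intervalIntegral.integral_const, smul_eq_mul] at h1
    simp only [hB]
    linarith
  have h1 : ∫ t in (0 : ℝ)..1, (-Real.log t) * (t * Ll u t) ≤
      ∫ t in (0 : ℝ)..1, (4 * B t + 8 * π * M) := by
    refine intervalIntegral.integral_mono_on zero_le_one ?_
      ((hBi.const_mul 4).add intervalIntegrable_const) fun t ht => ?_
    · have h2 : IntervalIntegrable (fun t => -(t * Real.log t) * Ll u t) volume 0 1 := by
        refine ContinuousOn.intervalIntegrable ?_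
        rw [uIcc_of_le zero_le_one]
        exact (Real.continuous_mul_log.neg.continuousOn).mul (cont_Ll hu)
      refine h2.congr fun t _ => ?_
      ring
    · have h2 := Real.negMulLog_nonneg ht.1 ht.2
      have h3 := Real.negMulLog_le_one_sub_self ht.1
      have h4 : 0 ≤ 4 * B t + 8 * π * M := by
        have := hB0 t
        positivity
      calc (-Real.log t) * (t * Ll u t) = Real.negMulLog t * Ll u t := by
            unfold Real.negMulLog
            ring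
        _ ≤ Real.negMulLog t * (4 * B t + 8 * π * M) := mul_le_mul_of_nonneg_left (hLl t ht) h2
        _ ≤ 4 * B t + 8 * π * M := mul_le_of_le_one_left h4 (by linarith [ht.1])
  rw [jensen_center hu, intervalIntegral.integral_add (hBi.const_mul 4) intervalIntegrable_const,
    intervalIntegral.integral_const_mul, intervalIntegral.integral_const, smul_eq_mul] at h1
  have h2 : ∫ _θ in (-π)..π, Real.log δ ≤ Mm u 1 := by
    refine intervalIntegral.integral_mono_on neg_pi_le_pi intervalIntegrable_const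
      (hint (cont_u hu) 1 ⟨zero_le_one, le_rfl⟩) fun θ _ => ?_
    refine Real.log_le_log hδ ((hN _ ?_).trans (le_add_of_nonneg_right hτ.le))
    simp [Complex.norm_exp_ofReal_mul_I]
  rw [intervalIntegral.integral_const, smul_eq_mul] at h2
  have h3 : u 0 = Real.log (nh f ρ y + τ) := by simp [hu', lg]
  rw [h3] at h1
  linarith

/-- averaging over translates -/
theorem avg {F : Cm d → ℝ≥0∞} (hF : Measurable F) (S : Set (Cm d)) (hS : MeasurableSet S)
    (w : Cm d) {κ : ℝ≥0∞} (h : ∀ y ∈ S, κ ≤ ∫⁻ t in Ioc (0 : ℝ) 1, ∫⁻ θ in Ioc (-π) π,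
      F (y + ((t : ℂ) * cexp (θ * I)) • w)) :
    κ * volume S ≤ (∫⁻ z, F z) * ENNReal.ofReal (2 * π) := by
  set ν : Measure (ℝ × ℝ) :=
    (volume.restrict (Ioc (0 : ℝ) 1)).prod (volume.restrict (Ioc (-π) π)) with hν
  have hm : Measurable fun q : Cm d × (ℝ × ℝ) =>
      F (q.1 + ((q.2.1 : ℂ) * cexp (q.2.2 * I)) • w) := hF.comp (by fun_prop)
  have h1 : ν univ = ENNReal.ofReal (2 * π) := by
    rw [hν, ← univ_prod_univ, Measure.prod_prod]
    simp [two_mul]
  calc κ * volume S = ∫⁻ _y in S, κ := (setLIntegral_const _ _).symm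
    _ ≤ ∫⁻ y in S, ∫⁻ p, F (y + ((p.1 : ℂ) * cexp (p.2 * I)) • w) ∂ν := by
        refine setLIntegral_mono' hS fun y hy => (h y hy).trans (le_of_eq ?_)
        exact (lintegral_prod (fun p : ℝ × ℝ => F (y + ((p.1 : ℂ) * cexp (p.2 * I)) • w))
          (hm.comp (measurable_prodMk_left (x := y))).aemeasurable).symm
    _ = ∫⁻ p, (∫⁻ y in S, F (y + ((p.1 : ℂ) * cexp (p.2 * I)) • w)) ∂ν :=
        lintegral_lintegral_swap hm.aemeasurable
    _ ≤ ∫⁻ _p, (∫⁻ z, F z) ∂ν := lintegral_mono fun p =>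
        (setLIntegral_le_lintegral _ _).trans (le_of_eq (lintegral_add_right_eq_self F _))
    _ = _ := by rw [lintegral_const, h1]

theorem core {f : Cm d → ℂ} {ρ : Cm d → ℝ} {a w : Cm d} {R : ℝ} (hR : 0 < R)
    (hf : ∀ z ∈ ball a R, AnalyticAt ℂ f z) (hρ : ∀ z ∈ ball a R, ContDiffAt ℝ ∞ ρ z)
    (ha : f a = 0) (hw : ‖w‖ ≤ R / 4) (hne : ∀ ζ ∈ sphere (0 : ℂ) 1, f (a + ζ • w) ≠ 0) :
    ∃ c : ℝ, 0 < c ∧ ∀ᶠ τ in 𝓝[>] (0 : ℝ),
      ENNReal.ofReal c ≤ ∫⁻ z in ball a R, ENNReal.ofReal (gv f ρ τ w z) := by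
  have hpi := Real.pi_pos
  have hsub : closedBall a (R / 2) ⊆ ball a R := closedBall_subset_ball (by linarith)
  have hmem : ∀ y ∈ ball a (R / 4), ∀ ζ ∈ closedBall (0 : ℂ) 1,
      y + ζ • w ∈ closedBall a (R / 2) := by
    intro y hy ζ hζ
    rw [mem_closedBall_iff_norm, add_sub_right_comm]
    have h1 : ‖ζ • w‖ ≤ R / 4 := by
      rw [norm_smul]
      exact (mul_le_of_le_one_left (norm_nonneg _) (mem_closedBall_zero_iff.1 hζ)).trans hw
    have h2 := mem_ball_iff_norm.1 hy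
    linarith [norm_add_le (y - a) (ζ • w)]
  have ha4 : a ∈ ball a (R / 4) := mem_ball_self (by linarith)
  obtain ⟨M, hM⟩ := (isCompact_closedBall a (R / 2)).exists_bound_of_continuousOn
    (f := lv w ρ) (by
      intro z hz
      refine ContinuousAt.continuousWithinAt ?_
      unfold lv
      exact tendsto_finsetSum _ fun j _ => tendsto_finsetSum _ fun k _ =>
        continuousAt_const.mul (INT.smooth_cHess (hρ z (hsub hz)) j k).continuousAt)
  have hNc : ∀ z ∈ ball a R, ContinuousAt (nh f ρ) z := fun z hz =>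
    continuousAt_nh (hf z hz) (hρ z hz)
  have hsp : ∀ ζ ∈ sphere (0 : ℂ) 1, a + ζ • w ∈ ball a R := fun ζ hζ =>
    hsub (hmem a ha4 ζ (sphere_subset_closedBall hζ))
  obtain ⟨δ2, hδ2, hδ3⟩ := (isCompact_sphere (0 : ℂ) 1).exists_forall_le'
    (f := fun ζ => nh f ρ (a + ζ • w)) (a := 0)
    (fun ζ hζ => ((hNc _ (hsp ζ hζ)).comp (f := fun ζ : ℂ => a + ζ • w)
      (by fun_prop)).continuousWithinAt) fun ζ hζ => nh_pos (hne ζ hζ)
  set δ := δ2 / 2 with hδ'
  have hδ : 0 < δ := by positivity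
  have e1 : ∀ᶠ y in 𝓝 a, ∀ ζ ∈ sphere (0 : ℂ) 1, δ ≤ nh f ρ (y + ζ • w) := by
    refine (isCompact_sphere (0 : ℂ) 1).eventually_forall_of_forall_eventually
      (P := fun y ζ => δ ≤ nh f ρ (y + ζ • w)) fun ζ hζ => ?_
    have h1 : ContinuousAt (fun q : Cm d × ℂ => nh f ρ (q.1 + q.2 • w)) (a, ζ) :=
      ContinuousAt.comp (g := nh f ρ) (f := fun q : Cm d × ℂ => q.1 + q.2 • w) (x := (a, ζ))
        (hNc _ (hsp ζ hζ)) (by fun_prop)
    refine h1.eventually (eventually_ge_nhds ?_)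
    have := hδ3 ζ hζ
    simp only at this ⊢
    linarith
  set η := δ * Real.exp (-((8 * π * M + 4) / (2 * π))) with hη'
  have hη : 0 < η := by positivity
  have e2 : ∀ᶠ y in 𝓝 a, nh f ρ y < η / 2 := by
    refine (hNc a (mem_ball_self hR)).eventually (eventually_lt_nhds ?_)
    simp only [nh, ha, norm_zero]
    simpa using hη
  obtain ⟨ε, hε, hεb⟩ := Metric.eventually_nhds_iff_ball.1
    (e1.and (e2.and (isOpen_ball.eventually_mem ha4)))
  have hV0 : volume (ball a ε) ≠ 0 := (measure_ball_pos volume a hε).ne'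
  have hV1 : volume (ball a ε) ≠ ⊤ := measure_ball_lt_top.ne
  have hp0 : ENNReal.ofReal (2 * π) ≠ 0 := (ENNReal.ofReal_pos.2 (by positivity)).ne'
  refine ⟨(volume (ball a ε) / ENNReal.ofReal (2 * π)).toReal,
    ENNReal.toReal_pos (ENNReal.div_ne_zero.2 ⟨hV0, ENNReal.ofReal_ne_top⟩)
      (ENNReal.div_ne_top hV1 hp0), ?_⟩
  filter_upwards [Ioo_mem_nhdsGT (half_pos hη)] with τ hτ
  rw [ENNReal.ofReal_toReal (ENNReal.div_ne_top hV1 hp0)]
  refine ENNReal.div_le_of_le_mul ?_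
  set F : Cm d → ℝ≥0∞ := (ball a R).indicator fun z => ENNReal.ofReal (gv f ρ τ w z) with hF
  have hFm : Measurable F := by
    classical
    rw [hF, ← piecewise_eq_indicator]
    refine ContinuousOn.measurable_piecewise ?_ (continuousOn_const (c := (0 : ℝ≥0∞)))
      measurableSet_ball
    exact ENNReal.continuous_ofReal.comp_continuousOn fun z hz =>
      (continuousAt_gv (hf z hz) (hρ z hz) hτ.1 w).continuousWithinAt
  rw [← lintegral_indicator measurableSet_ball, ← one_mul (volume (ball a ε))]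
  refine avg hFm _ measurableSet_ball w fun y hy => ?_
  obtain ⟨h1, h2, h3⟩ := hεb y hy
  have h4 := disc hτ.1 hδ (fun ζ hζ => hf _ (hsub (hmem y h3 ζ hζ)))
    (fun ζ hζ => hρ _ (hsub (hmem y h3 ζ hζ))) (fun ζ hζ => hM _ (hmem y h3 ζ hζ)) h1
  have h5 : Real.log (nh f ρ y + τ) ≤ Real.log δ - (8 * π * M + 4) / (2 * π) := by
    have h6 := nh_nonneg f ρ y
    have h7 : Real.log (nh f ρ y + τ) ≤ Real.log η :=
      Real.log_le_log (by linarith [hτ.1]) (by linarith [hτ.2])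
    rw [hη', Real.log_mul hδ.ne' (Real.exp_ne_zero _), Real.log_exp] at h7
    linarith
  have h6 : 8 * π * M + 4 ≤ 2 * π * (Real.log δ - Real.log (nh f ρ y + τ)) := by
    rw [← div_le_iff₀' (by positivity)]
    linarith
  have h7 : 1 ≤ ∫ t in (0 : ℝ)..1, ∫ θ in (-π)..π,
      gv f ρ τ w (y + ((t : ℂ) * cexp (θ * I)) • w) := by linarith
  rw [← ENNReal.ofReal_one]
  refine (ENNReal.ofReal_le_ofReal h7).trans ?_
  rw [intervalIntegral.integral_of_le zero_le_one]
  refine (ofReal_integral_le _ fun t => intervalIntegral.integral_nonneg neg_pi_le_pi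
    fun θ _ => gv_nonneg hτ.1.le _ _).trans (setLIntegral_mono' measurableSet_Ioc fun t ht => ?_)
  rw [intervalIntegral.integral_of_le neg_pi_le_pi]
  refine (ofReal_integral_le _ fun θ => gv_nonneg hτ.1.le _ _).trans (lintegral_mono fun θ => ?_)
  rw [hF, indicator_of_mem (hsub (hmem y h3 _ (mem_disc (Ioc_subset_Icc_self ht) θ)))]

end Jen

theorem jen : JEN := by
  intro d f ρ a v R hR hf hρ ha hne
  have hg : AnalyticAt ℂ (fun ζ : ℂ => f (a + ζ • v)) 0 := by
    refine AnalyticAt.comp (f := fun ζ : ℂ => a + ζ • v) ?_ (by fun_prop)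
    rw [zero_smul, add_zero]
    exact hf a (mem_ball_self hR)
  have h1 := hg.eventually_eq_zero_or_eventually_ne_zero.resolve_left hne
  obtain ⟨r0, hr0, h2⟩ := Metric.eventually_nhds_iff_ball.1 (eventually_nhdsWithin_iff.1 h1)
  have hv := norm_nonneg v
  set r := min (r0 / 2) (R / 4 / (‖v‖ + 1)) with hr
  have hr1 : 0 < r := lt_min (by positivity) (by positivity)
  have hr2 : r < r0 := (min_le_left _ _).trans_lt (by linarith)
  have hr3 : r * (‖v‖ + 1) ≤ R / 4 := (le_div_iff₀ (by positivity)).1 (min_le_right _ _)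
  obtain ⟨c, hc, h3⟩ := Jen.core (w := (r : ℂ) • v) hR hf hρ ha (by
    rw [norm_smul, norm_real, Real.norm_of_nonneg hr1.le]
    nlinarith) (by
    intro ζ hζ
    have h4 : ‖ζ * r‖ = r := by
      rw [norm_mul, mem_sphere_zero_iff_norm.1 hζ, one_mul, norm_real, Real.norm_of_nonneg hr1.le]
    rw [smul_smul]
    refine h2 _ (mem_ball_zero_iff.2 (h4.trans_lt hr2)) fun h => ?_
    rw [mem_singleton_iff.1 h, norm_zero] at h4
    exact hr1.ne h4)
  refine ⟨c / r ^ 2, by positivity, h3.mono fun τ hτ => ?_⟩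
  rw [ENNReal.ofReal_div_of_pos (by positivity)]
  refine ENNReal.div_le_of_le_mul' (hτ.trans (le_of_eq ?_))
  rw [← lintegral_const_mul' _ _ ENNReal.ofReal_ne_top]
  refine lintegral_congr fun z => ?_
  rw [← ENNReal.ofReal_mul (by positivity)]
  congr 1
  have h4 : ∑ j, ((r : ℂ) • v) j * Dc f ρ z j = (r : ℂ) * (v ⬝ᵥ Dc f ρ z) := by
    rw [← smul_eq_mul, ← smul_dotProduct]
    rfl
  unfold gv
  rw [h4, norm_mul, norm_real, Real.norm_of_nonneg hr1.le]
  ring

end Vale.Agent.P301Z.Sec
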