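import Vale.Agent.P301Z.Sec.Defs
import Vale.Agent.P285Z.Div

/-!
# P301Z, block SEC, row LIM: the mass of the positive part tends to zero
-/

open scoped Manifold ContDiff Topology Matrix ENNReal
open Set Filter Metric MeasureTheory
open Vale.Agent.P272.K Vale.Agent.P301.H599 Vale.Agent.P301.H99
open Vale.Agent.P272.K.INT (intX part intX_add integrableOn_part)
open Vale.Agent.P301.H98 (nrm ul IsSection ev_mem)
open Vale.Agent.P285Z (NZS isSc_of_section)

noncomputable section

namespace Vale.Agent.P301Z.Sec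

namespace Lim

variable {d : ℕ} {X : Type} [TopologicalSpace X] [ChartedSpace (Cm d) X] {ι : Type}
  {L : LineBundle d X ι} {ρ : ι → X → ℝ} {f : ι → X → ℂ}

theorem ae_ne [ConnectedSpace X] (hρ : IsMetric L ρ) (hf : IsSection L f) (h0 : NZS L f)
    {e : Chart d X} (he : e ∈ atlas (Cm d) X) :
    ∀ᵐ z ∂(volume.restrict e.target), nrm L ρ f (e.symm z) ≠ 0 := by
  rw [ae_restrict_iff' e.open_target.measurableSet, ae_iff]
  refine measure_null_of_locally_null _ fun z hz => ?_
  have hz' : z ∈ e.target := by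
    by_contra h
    exact hz fun h' => absurd h' h
  have hx : At e (e.symm z) := At.of_target he hz'
  obtain ⟨i, hi⟩ := L.cover (e.symm z)
  obtain ⟨r, hr, hb⟩ := Metric.eventually_nhds_iff_ball.1 (ev_mem hx hi)
  have han : AnalyticOnNhd ℂ (fun z => f i (e.symm z)) (ball (e (e.symm z)) r) := fun w hw =>
    P285Z.holo_symm hf he (hb w hw).1 (hb w hw).2
  obtain ⟨z₀, hz₀, hz₀b⟩ :=
    ((P285Z.freq_chart_ne hρ hf h0 hx hi).and_eventually (ball_mem_nhds _ hr)).exists
  have hnull := Vale.Agent.P285.H16.null_zero isOpen_ball (convex_ball _ _) han ⟨z₀, hz₀b, hz₀⟩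
  rw [e.right_inv hz'] at hnull hb
  refine ⟨_, inter_mem self_mem_nhdsWithin (mem_nhdsWithin_of_mem_nhds (ball_mem_nhds z hr)),
    measure_mono_null (fun w hw => ?_) hnull⟩
  refine ⟨hw.2, ?_⟩
  refine (P285Z.nrm_eq_zero_iff hρ (isSc_of_section hf) (hb w hw.2).2).1 ?_
  by_contra h
  exact hw.1 fun _ => h

theorem frac_le {N τ : ℝ} (hN : 0 ≤ N) (hτ : 0 < τ) : |N / (N + τ)| ≤ 1 := by
  rw [abs_of_nonneg (by positivity)]
  exact div_le_one_of_le₀ (by linarith) (by positivity)

theorem frac_lim {N : ℝ} (hN : N ≠ 0) : Tendsto (fun τ => N / (N + τ)) (𝓝[>] 0) (𝓝 1) := by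
  have h : ContinuousAt (fun τ : ℝ => N / (N + τ)) 0 :=
    continuousAt_const.div (continuousAt_const.add continuousAt_id) (by simpa using hN)
  have h1 := h.tendsto
  rw [add_zero, div_self hN] at h1
  exact h1.mono_left nhdsWithin_le_nhds

end Lim

theorem lim : LIM := by
  intro d X _ _ _ _ _ _ ι L ρ f E hρ hf h0 hE hD
  have hs : IsSection L f := ⟨hf.1, fun i j x hi hj => by simpa using hf.2 i j x hi hj⟩
  have hN := P285Z.continuous_nrm hρ (isSc_of_section hs)
  have hc := (P301.H98.rform_curvature hρ).closed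
  have hd := hE.isDensity hc.form hc.smooth
  have hq : ∀ τ : ℝ, 0 < τ → Continuous fun x => nrm L ρ f x / (nrm L ρ f x + τ) := fun τ hτ =>
    hN.div (hN.add continuous_const) fun x =>
      (add_pos_of_nonneg_of_pos (P301.H98.nrm_nonneg x) hτ).ne'
  have h1 : ∀ᶠ τ in 𝓝[>] (0 : ℝ), intX (fun e z => nrm L ρ f (e.symm z) /
      (nrm L ρ f (e.symm z) + τ) * (curvature L ρ e z * E e z).trace.re) =
      intX (Pd L ρ f τ E) := by
    filter_upwards [self_mem_nhdsWithin] with τ hτ
    have hu := P301.H98.smooth_ul hρ hs hτ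
    have hcu := (P301.H98.rform_ddc hu).closed
    have h2 := intX_add (hE.isDensity hcu.form hcu.smooth) (hd.smul (hq τ hτ))
    have h3 : intX (fun e z => (ddc (ul L ρ f τ) e z * E e z).trace.re) = 0 :=
      P301.H450.intX_trace_cHess hE hu
    rw [h3, zero_add] at h2
    rw [← h2]
    refine congrArg intX (funext fun e => funext fun z => ?_)
    simp only [Pd, Matrix.add_mul, Matrix.smul_mul, Matrix.trace_add, Matrix.trace_smul,
      Complex.add_re, smul_eq_mul, Complex.re_ofReal_mul]
  refine Tendsto.congr' h1 (Tendsto.mono_right ?_ (congrArg nhds hD).le)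
  unfold intX
  refine tendsto_finsetSum _ fun i _ => ?_
  have hi := integrableOn_part (part d X) hd i
  refine tendsto_integral_filter_of_dominated_convergence _ ?_ ?_ hi.norm ?_
  · filter_upwards [self_mem_nhdsWithin] with τ hτ
    exact (integrableOn_part (part d X) (hd.smul (hq τ hτ)) i).aestronglyMeasurable
  · filter_upwards [self_mem_nhdsWithin] with τ hτ
    refine Eventually.of_forall fun z => ?_
    rw [mul_left_comm, norm_mul]
    exact mul_le_of_le_one_left (norm_nonneg _) (Lim.frac_le (P301.H98.nrm_nonneg _) hτ)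
  · filter_upwards [Lim.ae_ne hρ hs h0 ((part d X).mem i)] with z hz
    have := ((Lim.frac_lim hz).mul_const
      (curvature L ρ ((part d X).e i) z * E ((part d X).e i) z).trace.re).const_mul
      ((part d X).ρ i (((part d X).e i).symm z))
    rwa [one_mul] at this

end Vale.Agent.P301Z.Sec
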