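import Vale.Agent.P301Z.Sec.Defs

/-!
# P301Z, block SEC: monomials in independent sections
-/

open scoped Manifold ContDiff Topology
open Set Filter Metric
open Vale.Agent.P272.K Vale.Agent.P301.H599 Vale.Agent.P301.H99
open Vale.Agent.P281Z (AnV exists_co)

noncomputable section

namespace Vale.Agent.P301Z.Sec

namespace Mon

theorem poly_zero {n k : ℕ} {be : Fin k → Fin n → ℕ} (hb : Function.Injective be) {c : Fin k → ℂ}
    {q : Fin n → ℂ} (h : ∀ᶠ v in 𝓝 q, ∑ j, c j * ∏ l, v l ^ be j l = 0) : c = 0 := by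
  obtain ⟨ε, hε, h⟩ := Metric.eventually_nhds_iff_ball.1 h
  have h1 : (∑ j, MvPolynomial.monomial (Finsupp.equivFunOnFinite.symm (be j)) (c j) :
      MvPolynomial (Fin n) ℂ) = 0 := by
    refine MvPolynomial.funext_set (fun l => ball (q l) ε)
      (fun l => infinite_of_mem_nhds (q l) (ball_mem_nhds _ hε)) fun v hv => ?_
    rw [map_zero, map_sum, ← h v (by rwa [ball_pi _ hε])]
    refine Finset.sum_congr rfl fun j _ => ?_
    rw [MvPolynomial.eval_monomial, Finsupp.prod_fintype _ _ fun _ => pow_zero _]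
    rfl
  funext j
  have h2 := congrArg (MvPolynomial.coeff (Finsupp.equivFunOnFinite.symm (be j))) h1
  rw [MvPolynomial.coeff_sum, Finset.sum_eq_single j, MvPolynomial.coeff_monomial, if_pos rfl,
    MvPolynomial.coeff_zero] at h2
  · exact h2
  · intro j' _ hj
    rw [MvPolynomial.coeff_monomial, if_neg fun e => hj (hb (Finsupp.equivFunOnFinite.symm.injective e))]
  · simp

variable {d : ℕ} {X : Type} [TopologicalSpace X] [ChartedSpace (Cm d) X] {ι : Type}

theorem sec_mon {L : LineBundle d X ι} {M n N : ℕ} {σ₀ : ι → X → ℂ} {σ : Fin n → ι → X → ℂ}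
    (h0 : Sec L M σ₀) (h : ∀ j, Sec L M (σ j)) (β : Fin n → ℕ) (hβ : ∑ l, β l ≤ N) :
    Sec L (M * N) fun i y => σ₀ i y ^ (N - ∑ l, β l) * ∏ l, σ l i y ^ β l := by
  refine ⟨fun i e x he hx => ((h0.1 i e x he hx).fun_pow _).fun_mul
    (Finset.analyticAt_fun_prod _ fun l _ => ((h l).1 i e x he hx).fun_pow _),
    fun i j x hi hj => ?_⟩
  obtain ⟨r, rfl⟩ := Nat.exists_eq_add_of_le hβ
  simp only [h0.2 i j x hi hj, fun l => (h l).2 i j x hi hj, mul_pow, Finset.prod_mul_distrib,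
    Finset.prod_pow_eq_pow_sum, Nat.add_sub_cancel_left, pow_mul, pow_add]
  ring

end Mon

open Mon in
theorem mon : MON := by
  intro d X _ _ _ _ _ _ n ι L M σ₀ σ x i hd hM h0 hσ hx hne hi
  refine ⟨M * (n + 1), by positivity, 1, one_pos, fun m k hk => ?_⟩
  obtain ⟨be⟩ : Nonempty (Fin k ↪ (Fin n → Fin m)) := by
    refine Function.Embedding.nonempty_of_card_le ?_
    rw [one_mul] at hk
    simp only [Fintype.card_fin, Fintype.card_fun]
    exact_mod_cast hk
  have h1 : ∀ j, ∑ l, (be j l : ℕ) ≤ (n + 1) * m := fun j => by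
    have h2 := Finset.sum_le_card_nsmul Finset.univ (fun l => (be j l : ℕ)) m
      fun l _ => (be j l).2.le
    simp only [Finset.card_univ, Fintype.card_fin, smul_eq_mul] at h2
    nlinarith
  refine ⟨fun j i y => σ₀ i y ^ ((n + 1) * m - ∑ l, (be j l : ℕ)) * ∏ l, σ l i y ^ (be j l : ℕ),
    fun j => mul_assoc M (n + 1) m ▸ sec_mon h0 hσ _ (h1 j), fun c hc => ?_⟩
  have h2 : AnV d (σ₀ i) x := fun e he => h0.1 i e x he hx
  obtain ⟨Θ, -, h3, h4, h5⟩ := exists_co hi (d := n) (by simpa using hd.symm)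
    (inter_mem ((L.isOpen i).mem_nhds hx) (h2.cont.eventually_ne hne))
  refine poly_zero (be := fun j l => be j l) (q := (Θ x).1)
    (fun j j' e => be.injective (funext fun l => Fin.ext (congrFun e l))) ?_
  have h6 : ContinuousAt (fun v : Fin n → ℂ => (v, (Θ x).2)) (Θ x).1 := by fun_prop
  filter_upwards [h6.eventually (Θ.open_target.mem_nhds (Θ.map_source h3))] with v hv
  have h7 := Θ.map_target hv
  have h8 := h5 _ h7
  rw [Θ.right_inv hv] at h8
  obtain ⟨y, hy⟩ : ∃ y, y = Θ.symm (v, (Θ x).2) := ⟨_, rfl⟩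
  rw [← hy] at h7 h8
  have h9 : σ₀ i y ≠ 0 := (h4 h7).2
  refine mul_left_cancel₀ (pow_ne_zero ((n + 1) * m) h9) ?_
  rw [mul_zero, ← hc i y (h4 h7).1, Finset.mul_sum]
  refine Finset.sum_congr rfl fun j _ => ?_
  obtain ⟨r, hr⟩ := Nat.exists_eq_add_of_le (h1 j)
  have h10 : ∀ l, v l = σ l i y / σ₀ i y := fun l => congrFun h8 l
  simp only [h10, div_pow, Finset.prod_div_distrib, Finset.prod_pow_eq_pow_sum, hr,
    Nat.add_sub_cancel_left, pow_add]
  field_simp

end Vale.Agent.P301Z.Sec
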