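import Vale.Agent.P301Z.Sec.Defs

/-!
# P301Z, block SEC: coordinates of product type and the comparison of vertical vectors
-/

open scoped Manifold ContDiff Topology Matrix
open Set Filter Metric
open Vale.Agent.P272.K Vale.Agent.P301.H599
open Vale.Agent.P301Z.Sa

noncomputable section

namespace Vale.Agent.P301Z.Sec

namespace Prc

variable {d n n' : ℕ}

theorem lin_eq (T : Cm d →L[ℂ] ℂ) (v : Cm d) : (fun a => T (Pi.single a 1)) ⬝ᵥ v = T v := by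
  conv_rhs => rw [pi_eq_sum_univ' v]
  simp only [map_sum, map_smul, smul_eq_mul, dotProduct, mul_comm]

theorem span {s : Matrix (Fin d) (Fin d) ℂ} (hs : s.det ≠ 0) {B : Cm d →L[ℂ] Cm d}
    (hB : Function.Surjective B) (A : ((Fin n → ℂ) × Cm n') ≃L[ℂ] Cm d) {g : Fin n → Fin d → ℂ}
    (hg : ∀ l t, g l ⬝ᵥ B t = (A.symm t).1 l)
    (hL : ∀ v v' : Fin d → ℂ, (∀ l, g l ⬝ᵥ v = 0) → (∀ l, g l ⬝ᵥ v' = 0) → v ⬝ᵥ (s *ᵥ v') = 0)
    {v : Cm d} (hv : (A.symm v).1 = 0) :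
    B v = ∑ l, (B v ⬝ᵥ (s *ᵥ B (A (Pi.single l 1, 0)))) • (g l ᵥ* s⁻¹) := by
  have h1 : B v ᵥ* s = ∑ l, (B v ⬝ᵥ (s *ᵥ B (A (Pi.single l 1, 0)))) • g l := by
    refine dotProduct_eq _ _ fun w => ?_
    obtain ⟨t, rfl⟩ := hB w
    obtain ⟨⟨α, β⟩, rfl⟩ := A.surjective t
    have e : ((α, β) : (Fin n → ℂ) × Cm n') =
        ∑ l, α l • ((Pi.single l 1, 0) : (Fin n → ℂ) × Cm n') + (0, β) := by
      refine Prod.ext ?_ ?_
      · simp only [Prod.fst_add, Prod.fst_sum, Prod.smul_fst, add_zero]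
        exact pi_eq_sum_univ' α
      · simp only [Prod.snd_add, Prod.snd_sum, Prod.smul_snd, smul_zero, Finset.sum_const_zero,
          zero_add]
    have h0 : B v ⬝ᵥ (s *ᵥ B (A (0, β))) = 0 :=
      hL _ _ (fun l => by rw [hg, hv]; rfl) (fun l => by rw [hg, A.symm_apply_apply]; rfl)
    rw [← Matrix.dotProduct_mulVec, sum_dotProduct]
    simp only [smul_dotProduct, hg, A.symm_apply_apply, smul_eq_mul]
    conv_lhs => rw [e]
    simp only [map_add, map_sum, map_smul, Matrix.mulVec_add, Matrix.mulVec_sum,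
      Matrix.mulVec_smul, dotProduct_add, dotProduct_sum, dotProduct_smul, h0, add_zero,
      smul_eq_mul, mul_comm]
  have h2 : B v = (B v ᵥ* s) ᵥ* s⁻¹ := by
    rw [Matrix.vecMul_vecMul, Matrix.mul_nonsing_inv _ (Ne.isUnit hs), Matrix.vecMul_one]
  conv_lhs => rw [h2, h1]
  simp only [Matrix.sum_vecMul, Matrix.smul_vecMul]

theorem trace_eq (r : ℝ) (h : Fin n → Fin d → ℂ) (a : Fin d → ℂ) :
    (Matrix.vecMulVec a (star a) *
      ((r : ℂ) • ∑ l, Matrix.vecMulVec (star (h l)) (h l))).trace.re =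
      r * ∑ l, ‖h l ⬝ᵥ a‖ ^ 2 := by
  have e : ∀ l, (Matrix.vecMulVec a (star a) * Matrix.vecMulVec (star (h l)) (h l)).trace =
      ((‖h l ⬝ᵥ a‖ ^ 2 : ℝ) : ℂ) := fun l => by
    rw [Matrix.vecMulVec_mul_vecMulVec, Matrix.trace_vecMulVec, dotProduct_smul,
      Matrix.star_dotProduct_star, dotProduct_comm a (h l), smul_eq_mul]
    rw [Complex.star_def, Complex.conj_mul']
    push_cast
    rfl
  rw [Matrix.mul_smul, Matrix.trace_smul, Matrix.mul_sum, Matrix.trace_sum]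
  simp only [e]
  rw [← Complex.ofReal_sum, smul_eq_mul, ← Complex.ofReal_mul, Complex.ofReal_re]

theorem cs (c : Fin n → ℂ) (h : Fin n → Fin d → ℂ) (a : Fin d → ℂ) {K : ℝ} (hc : ∀ l, ‖c l‖ ≤ K) :
    ‖(∑ l, c l • h l) ⬝ᵥ a‖ ^ 2 ≤ n * K ^ 2 * ∑ l, ‖h l ⬝ᵥ a‖ ^ 2 := by
  have h1 : ‖(∑ l, c l • h l) ⬝ᵥ a‖ ≤ ∑ l, ‖c l‖ * ‖h l ⬝ᵥ a‖ := by
    rw [sum_dotProduct]
    refine (norm_sum_le _ _).trans (Finset.sum_le_sum fun l _ => ?_)
    rw [smul_dotProduct, smul_eq_mul, norm_mul]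
  have h2 : ∑ l, ‖c l‖ ^ 2 ≤ n * K ^ 2 := by
    calc _ ≤ ∑ _l : Fin n, K ^ 2 :=
          Finset.sum_le_sum fun l _ => pow_le_pow_left₀ (norm_nonneg _) (hc l) 2
      _ = _ := by simp
  calc _ ≤ (∑ l, ‖c l‖ * ‖h l ⬝ᵥ a‖) ^ 2 := pow_le_pow_left₀ (norm_nonneg _) h1 2
    _ ≤ (∑ l, ‖c l‖ ^ 2) * ∑ l, ‖h l ⬝ᵥ a‖ ^ 2 := Finset.sum_mul_sq_le_sq_mul_sq _ _ _
    _ ≤ _ := mul_le_mul_of_nonneg_right h2 (Finset.sum_nonneg fun l _ => by positivity)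

theorem dot_le (u w : Fin d → ℂ) : ‖u ⬝ᵥ w‖ ≤ d * (‖u‖ * ‖w‖) := by
  calc _ ≤ ∑ i, ‖u i * w i‖ := norm_sum_le _ _
    _ ≤ ∑ _i : Fin d, ‖u‖ * ‖w‖ := Finset.sum_le_sum fun i _ => by
        rw [norm_mul]
        exact mul_le_mul (norm_le_pi_norm u i) (norm_le_pi_norm w i) (norm_nonneg _)
          (norm_nonneg _)
    _ = _ := by simp

theorem bil_le {s : Matrix (Fin d) (Fin d) ℂ} {C : ℝ} (hC : 0 ≤ C) (hs : ∀ i, ‖s i‖ ≤ C)
    (u w : Fin d → ℂ) : ‖u ⬝ᵥ (s *ᵥ w)‖ ≤ d * (‖u‖ * (d * (C * ‖w‖))) := by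
  refine (dot_le _ _).trans ?_
  have : ‖s *ᵥ w‖ ≤ d * (C * ‖w‖) := by
    refine (pi_norm_le_iff_of_nonneg (by positivity)).2 fun i => (dot_le (s i) w).trans ?_
    have := hs i
    gcongr
  gcongr

theorem det_ne {B : Cm d →L[ℂ] Cm d} (hB : Function.Injective B) :
    (B.restrictScalars ℝ).det ≠ 0 := by
  intro h
  refine LinearMap.det_eq_zero_iff_ker_ne_bot.1 h ?_
  exact LinearMap.ker_eq_bot.2 hB

end Prc

open Prc in
theorem prc : PRC := by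
  intro d X _ _ _ _ _ _ s hs hd n O π b r hT hL e p he hp
  have hi := hT.ind p hp
  have hn : n ≤ d := by simpa using P281Z.ind_le hi
  obtain ⟨n', hn'⟩ := Nat.exists_eq_add_of_le hn
  obtain ⟨Φ, P, h1, h2, h3, h4⟩ := hi.par (d := n') (by simpa using hn'.symm) he
  obtain ⟨A⟩ : Nonempty (((Fin n → ℂ) × Cm n') ≃L[ℂ] Cm d) :=
    ⟨ContinuousLinearEquiv.ofFinrankEq (by simp [hn'])⟩
  obtain ⟨Ψ, hΨ⟩ : ∃ Ψ : Cm d → Cm d, Ψ = fun y => Φ.symm (Φ (e p) + A.symm y) := ⟨_, rfl⟩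
  have hΨ0 : Ψ 0 = e p := by
    rw [hΨ]
    simp only [map_zero, add_zero, Φ.left_inv h1]
  have hopen : IsOpen {y : Cm d | Φ (e p) + A.symm y ∈ Φ.target} :=
    Φ.open_target.preimage (continuous_const.add A.symm.continuous)
  have h0 : (0 : Cm d) ∈ {y : Cm d | Φ (e p) + A.symm y ∈ Φ.target} := by
    simp only [mem_ofPred_eq, map_zero, add_zero]
    exact Φ.map_source h1
  have han : ∀ y, Φ (e p) + A.symm y ∈ Φ.target → AnalyticAt ℂ Ψ y := fun y hy => by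
    rw [hΨ]
    exact AnalyticAt.comp (f := fun y => Φ (e p) + A.symm y) (h4 _ hy)
      (analyticAt_const.add (A.symm.analyticAt y))
  have hΦΨ : ∀ y, Φ (e p) + A.symm y ∈ Φ.target → Φ (Ψ y) = Φ (e p) + A.symm y := fun y hy => by
    rw [hΨ]
    exact Φ.right_inv hy
  have hsrc : ∀ y, Φ (e p) + A.symm y ∈ Φ.target → Ψ y ∈ Φ.source := fun y hy => by
    rw [hΨ]
    exact Φ.map_target hy
  have hdf : ∀ y, Φ (e p) + A.symm y ∈ Φ.target → ∀ l,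
      DifferentiableAt ℂ (fun z => π (e.symm z) l) (Ψ y) := fun y hy l =>
    (analyticAt_pi_iff.1 (h3 _ (hsrc y hy)) l).differentiableAt
  have hch : ∀ y, Φ (e p) + A.symm y ∈ Φ.target → ∀ t, A.symm t =
      (fun l => fderiv ℂ (fun z => π (e.symm z) l) (Ψ y) (fderiv ℂ Ψ y t), P (fderiv ℂ Ψ y t)) := by
    intro y hy t
    have a1 : HasFDerivAt Φ ((ContinuousLinearMap.pi fun l =>
        fderiv ℂ (fun z => π (e.symm z) l) (Ψ y)).prod P) (Ψ y) := by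
      have : (Φ : Cm d → (Fin n → ℂ) × Cm n') = fun w => (fun a => π (e.symm w) a, P w) := funext h2
      rw [this]
      exact (hasFDerivAt_pi.2 fun l => (hdf y hy l).hasFDerivAt).prodMk P.hasFDerivAt
    have a2 := a1.comp y (han y hy).differentiableAt.hasFDerivAt
    have a3 : HasFDerivAt (Φ ∘ Ψ) (A.symm : Cm d →L[ℂ] (Fin n → ℂ) × Cm n') y := by
      refine (A.symm.hasFDerivAt.const_add (Φ (e p))).congr_of_eventuallyEq ?_
      filter_upwards [hopen.mem_nhds hy] with y' hy' using hΦΨ y' hy'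
    exact congrArg (fun T : Cm d →L[ℂ] (Fin n → ℂ) × Cm n' => T t) (a3.unique a2)
  have hinj : ∀ y, Φ (e p) + A.symm y ∈ Φ.target → Function.Injective (fderiv ℂ Ψ y) := by
    intro y hy t t' h
    refine A.symm.injective ?_
    rw [hch y hy t, hch y hy t', h]
  have cΨ : Tendsto Ψ (𝓝 0) (𝓝 (e p)) := hΨ0 ▸ (han 0 h0).continuousAt
  have cB : ContinuousAt (fun y => fderiv ℂ Ψ y) 0 := (han 0 h0).fderiv.continuousAt
  have cs' : Tendsto (fun y => s e (Ψ y)) (𝓝 0) (𝓝 (s e (e p))) :=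
    Tendsto.comp (g := s e) (continuousAt_pi.2 fun i => continuousAt_pi.2 fun j =>
      (hs.holo e p he i j).continuousAt) cΨ
  obtain ⟨C1, hC1⟩ : ∃ C1 : ℝ, C1 = ‖fderiv ℂ Ψ 0‖ + 1 := ⟨_, rfl⟩
  obtain ⟨C2, hC2⟩ : ∃ C2 : ℝ, C2 = ∑ i, ‖s e (e p) i‖ + 1 := ⟨_, rfl⟩
  obtain ⟨c3, hc3⟩ : ∃ c3 : ℝ,
      c3 = |((fderiv ℂ Ψ 0).restrictScalars ℝ).det| * ‖(s e (e p)).det‖ / 2 := ⟨_, rfl⟩
  have p1 : 0 < C1 := by rw [hC1]; positivity
  have p2 : 0 < C2 := by rw [hC2]; positivity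
  have p3' : 0 < |((fderiv ℂ Ψ 0).restrictScalars ℝ).det| * ‖(s e (e p)).det‖ :=
    mul_pos (abs_pos.2 (det_ne (hinj 0 h0))) (norm_pos_iff.2 (hd e p he))
  have p3 : 0 < c3 := by rw [hc3]; positivity
  have e1 : ∀ᶠ y in 𝓝 (0 : Cm d), ‖fderiv ℂ Ψ y‖ < C1 :=
    cB.norm.eventually_lt_const (by rw [hC1]; exact lt_add_one _)
  have e2 : ∀ᶠ y in 𝓝 (0 : Cm d), ∀ i, ‖s e (Ψ y) i‖ < C2 := by
    refine eventually_all.2 fun i => ((tendsto_pi_nhds.1 cs' i).norm).eventually_lt_const ?_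
    have := Finset.single_le_sum (f := fun i => ‖s e (e p) i‖) (fun i _ => norm_nonneg _)
      (Finset.mem_univ i)
    rw [hC2]
    linarith
  have e3 : ∀ᶠ y in 𝓝 (0 : Cm d),
      c3 < |((fderiv ℂ Ψ y).restrictScalars ℝ).det| * ‖(s e (Ψ y)).det‖ := by
    have a1 : Tendsto (fun y => |((fderiv ℂ Ψ y).restrictScalars ℝ).det|) (𝓝 0)
        (𝓝 |((fderiv ℂ Ψ 0).restrictScalars ℝ).det|) :=
      ((ContinuousLinearMap.continuous_det.comp
        (ContinuousLinearMap.continuous_restrictScalars ℝ)).continuousAt.comp cB).abs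
    have a2 : Tendsto (fun y => ‖(s e (Ψ y)).det‖) (𝓝 0) (𝓝 ‖(s e (e p)).det‖) :=
      (((continuous_id.matrix_det).tendsto _).comp cs').norm
    exact (a1.mul a2).eventually_const_lt (by rw [hc3]; linarith)
  have e4 : ∀ᶠ y in 𝓝 (0 : Cm d), Ψ y ∈ e.target := cΨ.eventually he.nhds_target
  have e5 : ∀ᶠ y in 𝓝 (0 : Cm d), e.symm (Ψ y) ∈ O :=
    cΨ.eventually (P281Z.at_ev he (hT.opn.mem_nhds hp))
  obtain ⟨R, hR, hb⟩ := eventually_nhds_iff_ball.1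
    ((hopen.eventually_mem h0).and (e1.and (e2.and (e3.and (e4.and e5)))))
  obtain ⟨K, hK⟩ : ∃ K : ℝ,
      K = d * (C1 * (d * (C2 * (C1 * ‖(A : ((Fin n → ℂ) × Cm n') →L[ℂ] Cm d)‖)))) := ⟨_, rfl⟩
  refine ⟨Ψ, ((ContinuousLinearMap.fst ℂ _ _).comp
    (A.symm : Cm d →L[ℂ] (Fin n → ℂ) × Cm n')).ker, R, (n * K ^ 2 + 1) / c3, hR, by positivity, hΨ0,
    fun y hy => han y (hb y hy).1, fun y hy y' hy' h => ?_,
    fun y hy => ⟨(hb y hy).2.2.2.2.1, (hb y hy).2.2.2.2.2⟩, fun N hN => ?_,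
    fun y hy v hv a => ?_⟩
  · have := hΦΨ y (hb y hy).1
    rw [h, hΦΨ y' (hb y' hy').1] at this
    exact (A.symm.injective (add_left_cancel this)).symm
  · have c1 : ContinuousAt e p := e.continuousAt he.2
    have c2 : ContinuousAt (fun x => A (Φ (e x) - Φ (e p))) p :=
      A.continuous.continuousAt.comp (((Φ.continuousAt h1).comp c1).sub continuousAt_const)
    have c3 : ∀ᶠ x in 𝓝 p, A (Φ (e x) - Φ (e p)) ∈ N :=
      c2.eventually_mem (by simpa only [sub_self, map_zero] using hN)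
    filter_upwards [c3, c1.eventually_mem (Φ.open_source.mem_nhds h1), P281Z.at_near he]
      with x hx1 hx2 hx3 hx
    refine ⟨_, hx1, ?_, ?_⟩
    · change (A.symm (A (Φ (e x) - Φ (e p)))).1 = 0
      rw [A.symm_apply_apply, h2, h2, hx3.left_inv, he.left_inv, hx]
      simp
    · rw [hΨ]
      simp only [A.symm_apply_apply, add_sub_cancel, Φ.left_inv hx2]
  · obtain ⟨b0, b1, b2, b3, b4, b5⟩ := hb y hy
    have hx : At e (e.symm (Ψ y)) := At.of_target he.1 b4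
    have ex : e (e.symm (Ψ y)) = Ψ y := e.right_inv b4
    have hg : ∀ l t, gr (fun x => π x l) e (e.symm (Ψ y)) ⬝ᵥ fderiv ℂ Ψ y t = (A.symm t).1 l := by
      intro l t
      rw [hch y b0 t]
      have : gr (fun x => π x l) e (e.symm (Ψ y)) =
          fun a => fderiv ℂ (fun z => π (e.symm z) l) (Ψ y) (Pi.single a 1) := by
        funext a
        simp only [gr, ex]
        exact INT.dz_of_holo (hdf y b0 l) a
      rw [this, lin_eq]
    have hsp := span (hd e _ hx) ((LinearMap.injective_iff_surjective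
      (f := (fderiv ℂ Ψ y : Cm d →ₗ[ℂ] Cm d))).1 (hinj y b0)) A hg (hL _ b5 e hx) (v := v) hv
    have hc : ∀ l : Fin n, ‖fderiv ℂ Ψ y v ⬝ᵥ (s e (e (e.symm (Ψ y))) *ᵥ
        fderiv ℂ Ψ y (A (Pi.single l 1, 0)))‖ ≤ K * ‖v‖ := fun l => by
      rw [ex]
      refine (bil_le p2.le (fun i => (b2 i).le) _ _).trans ?_
      have a1 : ‖fderiv ℂ Ψ y v‖ ≤ C1 * ‖v‖ := (fderiv ℂ Ψ y).le_of_opNorm_le b1.le v
      have a2 : ‖((Pi.single l 1, 0) : (Fin n → ℂ) × Cm n')‖ ≤ 1 := by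
        simp [Prod.norm_def, Pi.norm_single]
      have a3 : ‖A (Pi.single l 1, 0)‖ ≤ ‖(A : ((Fin n → ℂ) × Cm n') →L[ℂ] Cm d)‖ :=
        (A : ((Fin n → ℂ) × Cm n') →L[ℂ] Cm d).unit_le_opNorm _ a2
      have a4 : ‖fderiv ℂ Ψ y (A (Pi.single l 1, 0))‖ ≤
          C1 * ‖(A : ((Fin n → ℂ) × Cm n') →L[ℂ] Cm d)‖ :=
        ((fderiv ℂ Ψ y).le_of_opNorm_le b1.le _).trans (by gcongr)
      calc _ ≤ d * (C1 * ‖v‖ *
            (d * (C2 * (C1 * ‖(A : ((Fin n → ℂ) × Cm n') →L[ℂ] Cm d)‖)))) := by gcongr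
        _ = _ := by rw [hK]; ring
    have h5 := cs _ (fun l => Sec.hv s (fun x => π x l) e (e.symm (Ψ y))) a hc
    have h6 : ‖fderiv ℂ Ψ y v ⬝ᵥ a‖ ^ 2 ≤ n * (K * ‖v‖) ^ 2 *
        ∑ l, ‖Sec.hv s (fun x => π x l) e (e.symm (Ψ y)) ⬝ᵥ a‖ ^ 2 := by
      conv_lhs => rw [hsp]
      exact h5
    rw [En, trace_eq, ex]
    refine h6.trans ?_
    have q1 : 0 ≤ ∑ l, ‖Sec.hv s (fun x => π x l) e (e.symm (Ψ y)) ⬝ᵥ a‖ ^ 2 :=
      Finset.sum_nonneg fun l _ => by positivity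
    generalize ∑ l, ‖Sec.hv s (fun x => π x l) e (e.symm (Ψ y)) ⬝ᵥ a‖ ^ 2 = Z at q1 ⊢
    generalize |((fderiv ℂ Ψ y).restrictScalars ℝ).det| = D1 at b3 ⊢
    generalize ‖(s e (Ψ y)).det‖ = D2 at b3 ⊢
    calc _ ≤ (n * K ^ 2 + 1) * ‖v‖ ^ 2 * Z := by
          rw [mul_pow, ← mul_assoc]
          gcongr
          exact (lt_add_one _).le
      _ = (n * K ^ 2 + 1) / c3 * ‖v‖ ^ 2 * Z * c3 := by field_simp
      _ ≤ (n * K ^ 2 + 1) / c3 * ‖v‖ ^ 2 * Z * (D1 * D2) := by gcongr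
      _ = _ := by ring

end Vale.Agent.P301Z.Sec
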