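import Vale.Agent.P301Z.Sec.Defs

/-!
# P301Z, block SEC: Stokes theorem (row STK)
-/

open scoped Manifold ContDiff Topology Matrix
open MeasureTheory Set Filter
open Vale.Agent.P272.K Vale.Agent.P272.K.INT
open Vale.Agent.P301.H450 (IsCoForm)
open Vale.Agent.P301.H949

noncomputable section

namespace Vale.Agent.P301Z.Sec

namespace Stk

variable {n : ℕ} {X : Type} [TopologicalSpace X] [ChartedSpace (Cm n) X]
  [IsManifold 𝓘(ℂ, Cm n) ω X] [T2Space X] [CompactSpace X]

/-- the piece supported in a chart -/
theorem piece {E : MF n X} (hE : IsCoForm E)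
    {γ : Chart n X → Cm n → Fin n → ℂ} (hγ : Is01 γ) {e : Chart n X} (he : e ∈ atlas (Cm n) X)
    {K : Set X} (hK : IsClosed K) (hKe : K ⊆ e.source)
    (h0 : ∀ e' x, At e' x → x ∉ K → γ e' (e' x) = 0) :
    intX (fun e z => (del γ e z * E e z).trace.re) = 0 := by
  have hD := hE.isDensity (del_form hγ) (del_smooth hγ)
  have hev0 : ∀ (e' : Chart n X) x, At e' x → x ∉ K → γ e' =ᶠ[𝓝 (e' x)] fun _ => 0 := by
    intro e' x hx hxK
    have h1 : ∀ᶠ y in 𝓝 (e' x), e'.symm y ∈ Kᶜ := by
      apply (e'.continuousAt_symm (e'.map_source hx.2)).eventually_mem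
      rw [e'.left_inv hx.2]
      exact hK.isOpen_compl.mem_nhds hxK
    filter_upwards [h1, hx.nhds_target] with y hy hy2
    have := h0 e' (e'.symm y) (At.of_target hx.1 hy2) hy
    rwa [e'.right_inv hy2] at this
  have hdel0 : ∀ (e' : Chart n X) x, At e' x → x ∉ K → del γ e' (e' x) = 0 := by
    intro e' x hx hxK
    ext k l
    show dz k (fun y => γ e' y l) (e' x) = 0
    have h1 : (fun y => γ e' y l) =ᶠ[𝓝 (e' x)] fun _ => (0 : ℂ) := by
      filter_upwards [hev0 e' x hx hxK] with y hy
      rw [hy]; rfl
    rw [INT.dz_congr h1]; simp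
  rw [intX_of_support hD he hK hKe (fun e' x hx hxK => by
    simp only [hdel0 e' x hx hxK, Matrix.zero_mul, Matrix.trace_zero, Complex.zero_re])]
  set V : Fin n → Cm n → ℂ := fun r z => ∑ j, γ e z j * E e z j r with hV
  have hat : ∀ z ∈ e.target, At e (e.symm z) := fun z hz => At.of_target he hz
  have hbs : ∀ z ∈ e.target, ∀ i j, ContDiffAt ℝ ∞ (fun y => E e y i j) z := by
    intro z hz i j
    have := hE.smooth e (e.symm z) (hat z hz) i j
    rwa [e.right_inv hz] at this
  have hγs : ∀ z ∈ e.target, ∀ l, ContDiffAt ℝ ∞ (fun y => γ e y l) z := by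
    intro z hz l
    have := hγ.smooth e (e.symm z) (hat z hz) l
    rwa [e.right_inv hz] at this
  have hcl : ∀ z ∈ e.target, ∀ j, ∑ i, dz i (fun y => E e y j i) z = 0 := by
    intro z hz j
    have := hE.div e (e.symm z) (hat z hz) j
    rwa [e.right_inv hz] at this
  have key : ∀ z ∈ e.target, (del γ e z * E e z).trace = ∑ r, dz r (V r) z := by
    intro z hz
    have h1 : ∀ r, dz r (V r) z = ∑ j, (del γ e z r j * E e z j r +
        γ e z j * dz r (fun y => E e y j r) z) := fun r => by
      rw [hV, INT.dz_sum (F := fun j y => γ e y j * E e y j r) Finset.univ fun j _ =>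
        ((hγs z hz j).mul (hbs z hz j r)).differentiableAt (by simp)]
      exact Finset.sum_congr rfl fun j _ => INT.dz_mul ((hγs z hz j).differentiableAt (by simp))
        ((hbs z hz j r).differentiableAt (by simp))
    have h2 : ∑ r, ∑ j, γ e z j * dz r (fun y => E e y j r) z = 0 := by
      rw [Finset.sum_comm]
      exact Finset.sum_eq_zero fun j _ => by rw [← Finset.mul_sum, hcl z hz j, mul_zero]
    simp only [h1, Finset.sum_add_distrib]
    rw [h2, add_zero]
    rfl
  have hc : IsCompact (e '' K) :=
    hK.isCompact.image_of_continuousOn (e.continuousOn.mono hKe)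
  have hsub : e '' K ⊆ e.target := by
    rintro _ ⟨x, hx, rfl⟩; exact e.map_source (hKe hx)
  set W : Fin n → Cm n → ℂ := fun r => e.target.indicator (V r) with hW
  have hVs : ∀ r, ∀ z ∈ e.target, ContDiffAt ℝ 1 (V r) z := by
    intro r z hz
    exact (ContDiffAt.sum fun j _ => (hγs z hz j).mul (hbs z hz j r)).of_le
      (by exact_mod_cast le_top)
  have hsupp : ∀ r, Function.support (W r) ⊆ e '' K := by
    intro r z hz
    rw [Function.mem_support] at hz
    have hzt : z ∈ e.target := by
      by_contra h; exact hz (indicator_of_notMem h _)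
    rw [hW] at hz
    simp only at hz
    rw [indicator_of_mem hzt] at hz
    by_contra hne
    apply hz
    have hzK : e.symm z ∉ K := fun h => hne ⟨_, h, e.right_inv hzt⟩
    have h1 := h0 e (e.symm z) (hat z hzt) hzK
    rw [e.right_inv hzt] at h1
    exact Finset.sum_eq_zero fun l _ => by rw [h1, Pi.zero_apply, zero_mul]
  have hts : ∀ r, tsupport (W r) ⊆ e '' K := fun r => closure_minimal (hsupp r) hc.isClosed
  have hWc : ∀ r, HasCompactSupport (W r) := fun r =>
    hc.of_isClosed_subset (isClosed_tsupport _) (hts r)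
  have hWev : ∀ r, ∀ z ∈ e.target, W r =ᶠ[𝓝 z] V r := by
    intro r z hz
    filter_upwards [e.open_target.mem_nhds hz] with y hy
    exact indicator_of_mem hy _
  have hWs : ∀ r, ContDiff ℝ 1 (W r) := by
    intro r
    rw [contDiff_iff_contDiffAt]
    intro z
    by_cases hz : z ∈ e.target
    · exact (hVs r z hz).congr_of_eventuallyEq (hWev r z hz)
    · exact contDiffAt_const.congr_of_eventuallyEq
        (notMem_tsupport_iff_eventuallyEq.1 fun h => hz (hsub (hts r h)))
  have hint : ∀ r, Integrable (fun z => dz r (W r) z) := by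
    intro r
    have h1 : Continuous (dz r (W r)) := by
      rw [dz_fun_eq]
      have := (hWs r).continuous_fderiv (by norm_num)
      exact continuous_const.mul ((this.clm_apply continuous_const).sub
        (continuous_const.mul (this.clm_apply continuous_const)))
    refine h1.integrable_of_hasCompactSupport (HasCompactSupport.intro hc fun z hz => ?_)
    have h2 : W r =ᶠ[𝓝 z] fun _ => 0 :=
      notMem_tsupport_iff_eventuallyEq.1 fun h => hz (hts r h)
    rw [INT.dz_congr h2]; simp
  have e1 : ∫ z in e.target, (del γ e z * E e z).trace.re = ∫ z, (∑ r, dz r (W r) z).re := by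
    rw [← integral_indicator e.open_target.measurableSet]
    congr 1
    funext z
    by_cases hz : z ∈ e.target
    · rw [indicator_of_mem hz, key z hz]
      congr 1
      exact Finset.sum_congr rfl fun r _ => (INT.dz_congr (hWev r z hz)).symm
    · rw [indicator_of_notMem hz]
      have : ∑ r, dz r (W r) z = 0 := by
        refine Finset.sum_eq_zero fun r _ => ?_
        have h2 : W r =ᶠ[𝓝 z] fun _ => 0 :=
          notMem_tsupport_iff_eventuallyEq.1 fun h => hz (hsub (hts r h))
        rw [INT.dz_congr h2]; simp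
      rw [this, Complex.zero_re]
  have e3 : ∫ z, (∑ r, dz r (W r) z).re = (∫ z, ∑ r, dz r (W r) z).re :=
    Complex.reCLM.integral_comp_comm (integrable_finsetSum _ fun r _ => hint r)
  rw [e1, e3, integral_finsetSum _ fun r _ => hint r]
  simp [fun r => integral_dz_eq_zero (hWs r) (hWc r) r]

/-- Stokes theorem against a closed form -/
theorem stokes {E : MF n X} (hE : IsCoForm E)
    {γ : Chart n X → Cm n → Fin n → ℂ} (hγ : Is01 γ) :
    intX (fun e z => (del γ e z * E e z).trace.re) = 0 := by
  classical
  set P := part n X with hP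
  have hp : ∀ i, Is01 fun (e : Chart n X) z l => (P.ρ i (e.symm z) : ℂ) * γ e z l := fun i =>
    hγ.smul (P.smooth i)
  have hD := fun i => hE.isDensity (del_form (hp i)) (del_smooth (hp i))
  have h1 : intX (fun e z => (del γ e z * E e z).trace.re) = intX fun e z => ∑ i,
      (del (fun (e : Chart n X) z l => (P.ρ i (e.symm z) : ℂ) * γ e z l) e z * E e z).trace.re := by
    refine intX_congr fun e x hx => ?_
    have h2 : del γ e (e x) = ∑ i,
        del (fun (e : Chart n X) z l => (P.ρ i (e.symm z) : ℂ) * γ e z l) e (e x) := by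
      ext k l
      rw [Matrix.sum_apply]
      show dz k (fun y => γ e y l) (e x) = ∑ i, dz k (fun y => (P.ρ i (e.symm y) : ℂ) * γ e y l) (e x)
      rw [← INT.dz_sum (F := fun i y => (P.ρ i (e.symm y) : ℂ) * γ e y l) Finset.univ fun i _ =>
        ((hp i).smooth e x hx l).differentiableAt (by simp)]
      congr 1
      funext y
      rw [← Finset.sum_mul]
      have := P.sum (e.symm y)
      have h3 : ∑ i, (P.ρ i (e.symm y) : ℂ) = 1 := by exact_mod_cast this
      rw [h3, one_mul]
    rw [h2, Matrix.sum_mul, Matrix.trace_sum, Complex.re_sum]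
  rw [h1, intX_sum Finset.univ fun i _ => hD i]
  refine Finset.sum_eq_zero fun i _ => ?_
  refine piece hE (hp i) (P.mem i) (isClosed_tsupport (P.ρ i)) (P.supp i) ?_
  intro e' x hx hxK
  funext l
  simp only [hx.left_inv, image_eq_zero_of_notMem_tsupport hxK]
  simp

end Stk

theorem stk : STK := by
  intro d X _ _ _ _ _ _ a E O hE hh h0 ⟨γ, γ', hγ, hγ', ha⟩
  rw [← add_zero (0 : ℝ)]
  nth_rewrite 1 [← Stk.stokes hE hγ]
  rw [← Stk.stokes hE hγ', ← intX_add (hE.isDensity (del_form hγ) (del_smooth hγ))
    (hE.isDensity (del_form hγ') (del_smooth hγ'))]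
  refine intX_congr fun e x hx => ?_
  by_cases hO : x ∈ O
  · have h1 : ((del γ' e (e x))ᴴ * E e (e x)).trace = star (del γ' e (e x) * E e (e x)).trace := by
      rw [← Matrix.trace_conjTranspose, Matrix.conjTranspose_mul, (hh e x hx).eq,
        Matrix.trace_mul_comm]
    rw [ha x hO e hx, Matrix.add_mul, Matrix.trace_add, Complex.add_re, h1]
    rfl
  · simp [h0 e x hx hO]

end Vale.Agent.P301Z.Sec
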