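import Vale.Agent.P301Z.Sec.Defs

/-!
# P301Z, block SEC: a smaller tube without zeros
-/

open scoped Manifold ContDiff Topology
open Set Filter Metric
open Vale.Agent.P272.K Vale.Agent.P301.H599 Vale.Agent.P301.H99
open Vale.Agent.P277Z (Hol Nz hol_const)
open Vale.Agent.P277Z.Slc (Ind dd dd_sub_const)
open Vale.Agent.P301Z.Sa

noncomputable section

namespace Vale.Agent.P301Z.Sec

namespace SubA

variable {d : ℕ} {X : Type} [TopologicalSpace X] [ChartedSpace (Cm d) X] {ι : Type}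
  {L : LineBundle d X ι} {K : ℕ} {f : ι → X → ℂ}

/-- the zero set -/
def Z (L : LineBundle d X ι) (f : ι → X → ℂ) : Set X := {x | ∀ i, x ∈ L.U i → f i x = 0}

theorem mem_Z (hf : Sec L K f) {i : ι} {x : X} (hx : x ∈ L.U i) (h : f i x = 0) : x ∈ Z L f :=
  fun j hj => by rw [hf.2 j i x hj hx, h, mul_zero]

theorem hol (hf : Sec L K f) {i : ι} {x : X} (hx : x ∈ L.U i) : Hol d (f i) x :=
  fun e he => hf.1 i e x he hx

theorem closed_Z (hf : Sec L K f) : IsClosed (Z L f) := by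
  refine ⟨isOpen_iff_mem_nhds.2 fun x hx => ?_⟩
  obtain ⟨i, hi⟩ := L.cover x
  filter_upwards [(L.isOpen i).mem_nhds hi, (hol hf hi).ne_near fun h => hx (mem_Z hf hi h)]
    with y h1 h2 h3 using h2 (h3 i h1)

theorem int_Z [IsManifold 𝓘(ℂ, Cm d) ω X] [ConnectedSpace X] (hf : Sec L K f)
    (h0 : ∃ i x, x ∈ L.U i ∧ f i x ≠ 0) : interior (Z L f) = ∅ := by
  have h1 : IsClosed (interior (Z L f)) := by
    refine ⟨isOpen_iff_mem_nhds.2 fun x hx => ?_⟩
    obtain ⟨i, hi⟩ := L.cover x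
    have h2 : Nz (f i) x := fun h => hx (mem_interior_iff_mem_nhds.2 (by
      filter_upwards [(L.isOpen i).mem_nhds hi, h] with y h1 h2 using mem_Z hf h1 h2))
    filter_upwards [(L.isOpen i).mem_nhds hi, h2.near (hol hf hi)] with y h3 h4 h5
    refine h4 ?_
    filter_upwards [(L.isOpen i).mem_nhds h3, mem_interior_iff_mem_nhds.1 h5] with z h6 h7
    exact h7 i h6
  refine (isClopen_iff.1 ⟨h1, isOpen_interior⟩).resolve_right fun h => ?_
  obtain ⟨i, x, hx, h2⟩ := h0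
  exact h2 (interior_subset (h.symm ▸ mem_univ x : x ∈ interior (Z L f)) i hx)

theorem ind_aff {α : Type} {h : α → X → ℂ} {x : X} (hi : Ind d h x) {k : ℂ} (hk : k ≠ 0)
    (c : α → ℂ) : Ind d (fun a y => k * (h a y - c a)) x := by
  refine ⟨fun a => (hol_const k x).mul ((hi.1 a).sub (hol_const _ x)), fun e he => ?_⟩
  refine (congrArg (fun v : α → Cm d →L[ℂ] ℂ => LinearIndependent ℂ v) (funext fun a => ?_)).mp
    ((hi.2 e he).units_smul fun _ => Units.mk0 k hk)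
  rw [Pi.smul_apply', Units.smul_mk0, ← dd_sub_const (h a) (c a)]
  exact (fderiv_const_mul (((hi.1 a).sub (hol_const _ x)) e he).differentiableAt k).symm

end SubA

open SubA

theorem sub : SUB := by
  intro d X _ _ _ _ _ _ s n O π b r r' hT hr' hr ι L K f hK hf h0 hz
  have hπ : ContinuousOn π O := fun x hx =>
    (continuousAt_pi.2 fun j => ((hT.ind x hx).1 j).cont).continuousWithinAt
  have hop : ∀ {B : Set (Cm n)}, IsOpen B → IsOpen (O ∩ π ⁻¹' B) := fun hB =>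
    hπ.isOpen_inter_preimage hT.opn hB
  obtain ⟨x₁, ⟨h1, h2⟩, h3⟩ : ∃ x ∈ O ∩ π ⁻¹' ball b r', x ∉ Z L f := by
    by_contra! h
    obtain ⟨x, hx, hx'⟩ := (hT.conn b (mem_ball_self hT.pos)).nonempty
    have := interior_maximal h (hop isOpen_ball)
      ⟨hx, (show π x = b from hx').symm ▸ mem_ball_self hr'⟩
    rwa [int_Z hf h0] at this
  have h4 : π x₁ ∈ ball b r := ball_subset_ball hr h2
  have h5 : ∀ p ∈ O, π p = π x₁ → p ∉ Z L f := fun p hp e hpZ => by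
    have h6 : ∀ q ∈ O, π q = π x₁ → q ∈ Z L f →
        q ∈ interior {x | π x = π x₁ → x ∈ Z L f} := fun q hq e' hqZ => by
      obtain ⟨i, hi⟩ := L.cover q
      refine mem_interior_iff_mem_nhds.2 ?_
      filter_upwards [(L.isOpen i).mem_nhds hi, hz q hq (e'.symm ▸ h2) i hi (hqZ i hi)]
        with y a c e'' using mem_Z hf a (c (e''.trans e'.symm))
    obtain ⟨q, hq, a, c⟩ := (hT.conn _ h4).isPreconnected _ _ (closed_Z hf).isOpen_compl
      isOpen_interior (fun q hq => (em (q ∈ Z L f)).symm.imp_right (h6 q hq.1 hq.2))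
      ⟨x₁, ⟨h1, rfl⟩, h3⟩ ⟨p, ⟨hp, e⟩, h6 p hp e hpZ⟩
    exact a (interior_subset c hq.2)
  obtain ⟨r₀, hr₀, h6⟩ := nhds_basis_closedBall.mem_iff.1 (isOpen_ball.mem_nhds h4)
  have h7 := (((hT.prp _ h6 (isCompact_closedBall _ _)).inter_right
    (closed_Z hf)).image_of_continuousOn (hπ.mono fun x hx => hx.1.1)).isClosed
  obtain ⟨r₁, hr₁, h8⟩ := Metric.mem_nhds_iff.1 (inter_mem (closedBall_mem_nhds (π x₁) hr₀)
    (h7.isOpen_compl.mem_nhds fun ⟨p, hp, e⟩ => h5 p hp.1.1 e hp.2))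
  have h9 : ball (π x₁) r₁ ⊆ ball b r := fun t ht => h6 (h8 ht).1
  have h10 : ∀ B ⊆ ball (π x₁) r₁, O ∩ π ⁻¹' ball (π x₁) r₁ ∩ π ⁻¹' B = O ∩ π ⁻¹' B :=
    fun B hB => ext fun x => ⟨fun h => ⟨h.1.1, h.2⟩, fun h => ⟨⟨h.1, hB h.2⟩, h.2⟩⟩
  have hT' : Tube s (O ∩ π ⁻¹' ball (π x₁) r₁) π (π x₁) r₁ :=
    ⟨hop isOpen_ball, hr₁, fun x hx => hT.ind x hx.1, fun x hx => hx.2,
      fun B hB hc => (h10 B hB).symm ▸ hT.prp B (hB.trans h9) hc,
      fun t ht => (h10 {t} (singleton_subset_iff.2 ht)).symm ▸ hT.conn t (h9 ht),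
      fun x hx => hT.com x hx.1⟩
  have hk : 0 < 2 / r₁ := by positivity
  have hk' : ((2 / r₁ : ℝ) : ℂ) ≠ 0 := Complex.ofReal_ne_zero.2 hk.ne'
  have h11 : {t : Cm n | ∑ j, ‖((2 / r₁ : ℝ) : ℂ) * (t j - π x₁ j)‖ ^ 2 ≤ 1} ⊆
      closedBall (π x₁) (r₁ / 2) := fun t ht => by
    rw [mem_closedBall, dist_pi_le_iff (by positivity)]
    intro j
    have a := (Finset.single_le_sum (f := fun j => ‖((2 / r₁ : ℝ) : ℂ) * (t j - π x₁ j)‖ ^ 2)
      (fun _ _ => sq_nonneg _) (Finset.mem_univ j)).trans ht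
    rw [sq_le_one_iff₀ (norm_nonneg _), norm_mul, Complex.norm_real, Real.norm_of_nonneg hk.le,
      div_mul_eq_mul_div, div_le_one hr₁] at a
    rw [dist_eq_norm]
    linarith
  refine ⟨_, fun j y => ((2 / r₁ : ℝ) : ℂ) * (π y j - π x₁ j), x₁,
    ⟨hT'.opn, fun j x hx => (ind_aff (hT'.ind x hx) hk' _).1 j, ?_, hK,
      ⟨fun i x _ hi => hol hf hi, fun i x hx hi h => ?_, fun i j x _ => hf.2 i j x⟩,
      P281Z.thin_empty, fun x hx _ _ => ⟨_, π, _, _, hT', hx, Subset.rfl,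
        fun y _ y' _ e j => by rw [e]⟩⟩, ⟨h1, mem_ball_self hr₁⟩,
    fun j => mul_eq_zero_of_right _ (sub_self _), ind_aff (hT.ind x₁ h1) hk' _⟩
  · exact hT'.prp _ (h11.trans (closedBall_subset_ball (half_lt_self hr₁)))
      ((isCompact_closedBall _ _).of_isClosed_subset (isClosed_le (by fun_prop) continuous_const) h11)
  · exact (h8 hx.2).2 ⟨x, ⟨⟨hx.1, (h8 hx.2).1⟩, mem_Z hf hi h⟩, rfl⟩

end Vale.Agent.P301Z.Sec
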