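import Vale.Agent.P301Z.Sec.Defs
import Vale.Agent.P277Z.Luf.Hol

/-!
# P301Z, block SEC: a smaller tube without zeros
-/

open scoped Manifold ContDiff Topology
open Set Filter Metric
open Vale.Agent.P272.K Vale.Agent.P301.H599 Vale.Agent.P301.H99
open Vale.Agent.P277Z (Hol Nz hol_const)
open Vale.Agent.P277Z.Slc (Ind dd)
open Vale.Agent.P301Z.Sa

noncomputable section

namespace Vale.Agent.P301Z.Sec

namespace Sub2

variable {d : ℕ} {X : Type} [TopologicalSpace X] [ChartedSpace (Cm d) X] {ι : Type}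
  {L : LineBundle d X ι} {K : ℕ} {f : ι → X → ℂ}

/-- the zero set -/
def Z (L : LineBundle d X ι) (f : ι → X → ℂ) : Set X := {x | ∀ i, x ∈ L.U i → f i x = 0}

theorem mem_Z (hf : Sec L K f) {i : ι} {x : X} (hi : x ∈ L.U i) : x ∈ Z L f ↔ f i x = 0 :=
  ⟨fun h => h i hi, fun h j hj => by rw [hf.2 j i x hj hi, h, mul_zero]⟩

theorem ev_Z (hf : Sec L K f) {i : ι} {x : X} (hi : x ∈ L.U i) :
    ∀ᶠ y in 𝓝 x, (y ∈ Z L f ↔ f i y = 0) :=
  ((L.isOpen i).eventually_mem hi).mono fun _ h => mem_Z hf h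

theorem closed_Z (hf : Sec L K f) : IsClosed (Z L f) := by
  refine isOpen_compl_iff.1 (isOpen_iff_mem_nhds.2 fun x hx => ?_)
  obtain ⟨i, hi⟩ := L.cover x
  have h1 : Hol d (f i) x := fun e he => hf.1 i e x he hi
  filter_upwards [ev_Z hf hi, h1.ne_near fun k => hx ((mem_Z hf hi).2 k)] with y k1 k2 k3
  exact k2 (k1.1 k3)

theorem dense_Z [IsManifold 𝓘(ℂ, Cm d) ω X] [ConnectedSpace X] (hf : Sec L K f)
    (h0 : ∃ i x, x ∈ L.U i ∧ f i x ≠ 0) : interior (Z L f) = ∅ := by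
  have h1 : IsClosed (interior (Z L f)) := by
    refine isOpen_compl_iff.1 (isOpen_iff_mem_nhds.2 fun x hx => ?_)
    obtain ⟨i, hi⟩ := L.cover x
    have h2 : Nz (f i) x := fun k => hx (mem_interior_iff_mem_nhds.2 (by
      filter_upwards [k, ev_Z hf hi] with y k1 k2 using k2.2 k1))
    filter_upwards [h2.near fun e he => hf.1 i e x he hi, (L.isOpen i).eventually_mem hi]
      with y k1 k2 k3
    refine k1 ?_
    filter_upwards [mem_interior_iff_mem_nhds.1 k3, ev_Z hf k2] with z j1 j2 using j2.1 j1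
  rcases isClopen_iff.1 ⟨h1, isOpen_interior⟩ with h | h
  · exact h
  · obtain ⟨i, x, hi, hx⟩ := h0
    have h2 : x ∈ Z L f := interior_subset (h ▸ mem_univ x)
    exact absurd (h2 i hi) hx

end Sub2

open Sub2

theorem sub2 : SUB := by
  intro d X _ _ _ _ _ _ s n O π b r r' hT hr' hr ι L K f hK hf h0 hz
  have hπ : ∀ x ∈ O, ContinuousAt π x := fun x hx =>
    continuousAt_pi.2 fun j => ((hT.ind x hx).1 j).cont
  have hop : ∀ V, IsOpen V → IsOpen (O ∩ π ⁻¹' V) := fun V hV =>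
    ContinuousOn.isOpen_inter_preimage (fun x hx => (hπ x hx).continuousWithinAt) hT.opn hV
  obtain ⟨x, ⟨hx, hxb⟩, hxZ⟩ : ∃ x ∈ O ∩ π ⁻¹' ball b r', x ∉ Z L f := by
    by_contra hcon
    obtain ⟨y, hy, hyb⟩ := (hT.conn b (mem_ball_self hT.pos)).nonempty
    have h1 : y ∈ interior (Z L f) := interior_maximal
      (fun z hz => not_not.1 fun k => hcon ⟨z, hz, k⟩) (hop _ isOpen_ball)
      ⟨hy, by rw [mem_preimage, show π y = b from hyb]; exact mem_ball_self hr'⟩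
    rw [dense_Z hf h0] at h1
    exact h1
  have hxr : π x ∈ ball b r := hT.maps hx
  have h2 : ∀ y ∈ O, π y = π x → y ∉ Z L f := by
    have h3 := (hT.conn _ hxr).isPreconnected
    have h4 : IsOpen {y | ∀ᶠ z in 𝓝 y, π z = π x → z ∈ Z L f} := isOpen_setOfPred_eventually_nhds
    intro y hy hyx hyZ
    have h5 : ∀ p ∈ O, π p = π x → p ∈ Z L f → ∀ᶠ z in 𝓝 p, π z = π x → z ∈ Z L f := by
      intro p hp hpx hpZ
      obtain ⟨i, hi⟩ := L.cover p
      filter_upwards [hz p hp (hpx ▸ hxb) i hi (hpZ i hi), ev_Z hf hi] with z k1 k2 k3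
      exact k2.2 (k1 (k3.trans hpx.symm))
    obtain ⟨p, hp, k1, k2⟩ := h3 _ _ h4 (closed_Z hf).isOpen_compl
      (fun p hp => (em (p ∈ Z L f)).imp (h5 p hp.1 hp.2) id) ⟨y, ⟨hy, hyx⟩, h5 y hy hyx hyZ⟩
      ⟨x, ⟨hx, rfl⟩, hxZ⟩
    exact k2 (k1.self_of_nhds hp.2)
  obtain ⟨r₀, hr₀, hb₀⟩ := nhds_basis_closedBall.mem_iff.1 (isOpen_ball.mem_nhds hxr)
  have hQ : IsCompact (π '' (O ∩ π ⁻¹' closedBall (π x) r₀ ∩ Z L f)) :=
    ((hT.prp _ hb₀ (isCompact_closedBall _ _)).inter_right (closed_Z hf)).image_of_continuousOn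
      fun y hy => (hπ y hy.1.1).continuousWithinAt
  obtain ⟨r₁, hr₁, hb₁⟩ := Metric.mem_nhds_iff.1 (inter_mem (hQ.isClosed.isOpen_compl.mem_nhds
    (by rintro ⟨y, hy, e⟩; exact h2 y hy.1.1 e hy.2)) (closedBall_mem_nhds (π x) hr₀))
  have hsub : ball (π x) r₁ ⊆ ball b r := fun t ht => hb₀ (hb₁ ht).2
  have hU : ∀ S ⊆ ball (π x) r₁, O ∩ π ⁻¹' ball (π x) r₁ ∩ π ⁻¹' S = O ∩ π ⁻¹' S := fun S hS =>
    Set.ext fun y => ⟨fun h => ⟨h.1.1, h.2⟩, fun h => ⟨⟨h.1, hS h.2⟩, h.2⟩⟩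
  have hT' : Tube s (O ∩ π ⁻¹' ball (π x) r₁) π (π x) r₁ :=
    ⟨hop _ isOpen_ball, hr₁, fun y hy => hT.ind y hy.1, fun y hy => hy.2,
      fun S hS hc => by rw [hU S hS]; exact hT.prp S (hS.trans hsub) hc,
      fun t ht => by rw [hU _ (singleton_subset_iff.2 ht)]; exact hT.conn t (hsub ht),
      fun y hy => hT.com y hy.1⟩
  set c : ℂ := ((2 / r₁ : ℝ) : ℂ) with hc
  have hc0 : c ≠ 0 := Complex.ofReal_ne_zero.2 (by positivity)
  have hg : ∀ j, ∀ y ∈ O, Hol d (fun y => c * (π y j - π x j)) y := fun j y hy =>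
    (hol_const _ _).mul (((hT.ind y hy).1 j).sub (hol_const _ _))
  have hS : {t : Cm n | ∑ j, ‖c * (t j - π x j)‖ ^ 2 ≤ 1} ⊆ closedBall (π x) (r₁ / 2) := by
    intro t ht
    rw [mem_closedBall, dist_pi_le_iff (by positivity)]
    intro j
    have k1 : ‖c * (t j - π x j)‖ ^ 2 ≤ 1 := (Finset.single_le_sum
      (f := fun j => ‖c * (t j - π x j)‖ ^ 2) (fun _ _ => by positivity) (Finset.mem_univ j)).trans ht
    have k2 := (sq_le_one_iff₀ (norm_nonneg _)).1 k1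
    rw [norm_mul, hc, Complex.norm_real, Real.norm_of_nonneg (by positivity), div_mul_eq_mul_div,
      div_le_one hr₁] at k2
    rw [dist_eq_norm]
    linarith
  have hS' := hS.trans (closedBall_subset_ball (half_lt_self hr₁))
  refine ⟨O ∩ π ⁻¹' ball (π x) r₁, fun j y => c * (π y j - π x j), x,
    ⟨hT'.opn, fun j y hy => hg j y hy.1, hT'.prp _ hS' ((isCompact_closedBall _ _).of_isClosed_subset
      (isClosed_le (by fun_prop) continuous_const) hS), hK,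
      ⟨fun i y _ hi e he => hf.1 i e y he hi, fun i y hy hi k => ?_, fun i j y _ => hf.2 i j y⟩,
      ⟨fun _ => ⟨1, fun _ _ => 1, fun _ => hol_const _ _, by simp⟩, by simp⟩,
      fun y hy _ _ => ⟨_, π, _, _, hT', hy, Subset.rfl, fun z _ z' _ e j => by rw [e]⟩⟩,
    ⟨hx, mem_ball_self hr₁⟩, fun j => by simp, fun j => hg j x hx,
    fun e he => ?_⟩
  · exact (hb₁ hy.2).1 ⟨y, ⟨⟨hy.1, (hb₁ hy.2).2⟩, (mem_Z hf hi).2 k⟩, rfl⟩
  · have k1 : (fun j => dd (fun y => c * (π y j - π x j)) e x) =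
        (fun _ : Fin n => Units.mk0 c hc0) • fun j => dd (fun y => π y j) e x := by
      funext j
      rw [P277Z.Slc.dd_mul (hol_const c x) (((hT.ind x hx).1 j).sub (hol_const _ _)) (sub_self _) he,
        P277Z.Slc.dd_sub_const]
      rfl
    rw [k1]
    exact ((hT.ind x hx).2 e he).units_smul _

end Vale.Agent.P301Z.Sec
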