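import Vale.Agent.P301Z.Sec.Defs
import Vale.Agent.P301.H98.Tr
import Vale.Agent.P299.H167.VolChart

/-!
# P301Z, block SEC, row TRF: a section with a zero in the tube vanishes along the fibre
-/

open scoped Manifold ContDiff Topology Matrix ENNReal
open Set Filter Metric MeasureTheory
open Vale.Agent.P272.K Vale.Agent.P301.H599 Vale.Agent.P301.H99
open Vale.Agent.P272.K.INT (intX IsDensity)
open Vale.Agent.P301.H450 (IsCoForm)
open Vale.Agent.P301.H98 (nrm ul cf Dc nh Pm IsSection)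
open Vale.Agent.P301Z.Sa

noncomputable section

namespace Vale.Agent.P301Z.Sec

namespace Trf

variable {d : ℕ} {X : Type} [TopologicalSpace X] [ChartedSpace (Cm d) X] {ι : Type}

theorem en_nn (s : MF d X) {n : ℕ} (π : X → Cm n) (e : Chart d X) (x : X) (a : Fin d → ℂ) :
    0 ≤ (Matrix.vecMulVec a (star a) * En s π e x).trace.re := by
  rw [En, Matrix.mul_smul, Matrix.trace_smul, smul_eq_mul, Complex.re_ofReal_mul, Matrix.mul_sum,
    Matrix.trace_sum, Complex.re_sum]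
  refine mul_nonneg (norm_nonneg _) (Finset.sum_nonneg fun l _ => ?_)
  rw [Matrix.vecMulVec_mul_vecMulVec, Matrix.trace_vecMulVec, dotProduct_smul, smul_eq_mul,
    Matrix.star_dotProduct_star, dotProduct_comm a, RCLike.star_def, Complex.conj_mul']
  norm_cast
  positivity

theorem cf_nn (f : Cm d → ℂ) (ρ : Cm d → ℝ) {τ : ℝ} (h : 0 < τ) (z : Cm d) : 0 ≤ cf f ρ τ z := by
  unfold cf
  positivity

theorem chain {f : Cm d → ℂ} {ρ : Cm d → ℝ} {Ψ : Cm d → Cm d} {y : Cm d}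
    (hf : AnalyticAt ℂ f (Ψ y)) (hρ : ContDiffAt ℝ ∞ ρ (Ψ y)) (hΨ : AnalyticAt ℂ Ψ y) (v : Cm d) :
    v ⬝ᵥ Dc (fun z => f (Ψ z)) (fun z => ρ (Ψ z)) y = fderiv ℂ Ψ y v ⬝ᵥ Dc f ρ (Ψ y) := by
  have h1 : DifferentiableAt ℝ f (Ψ y) := hf.differentiableAt.restrictScalars ℝ
  have h2 : DifferentiableAt ℝ (fun z => (ρ z : ℂ)) (Ψ y) :=
    Complex.ofRealCLM.differentiableAt.comp _ (hρ.differentiableAt (by simp))
  simp only [dotProduct, Dc, dz_comp_holo h1 hΨ.differentiableAt,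
    dz_comp_holo h2 hΨ.differentiableAt, jmat_mulVec hΨ.differentiableAt, Finset.mul_sum,
    Finset.sum_mul, ← Finset.sum_sub_distrib]
  rw [Finset.sum_comm]
  exact Finset.sum_congr rfl fun p _ => Finset.sum_congr rfl fun j _ => by ring

variable [IsManifold 𝓘(ℂ, Cm d) ω X] {L : LineBundle d X ι} {ρ : ι → X → ℝ} {f : ι → X → ℂ}
  {τ : ℝ} {E : MF d X}

theorem isSection (hf : Sec L 1 f) : IsSection L f :=
  ⟨hf.1, fun i j x hi hj => by rw [hf.2 i j x hi hj, pow_one]⟩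

theorem pd_eq (hρ : IsMetric L ρ) (hf : Sec L 1 f) (hτ : 0 < τ) {s : MF d X} {n : ℕ} {O : Set X}
    {π : X → Cm n} {b : Cm n} {r : ℝ} {η : X → ℝ} (hC : Cut s O π b r E η) {e : Chart d X} {x : X}
    (hx : At e x) {i : ι} (hi : x ∈ L.U i) : Pd L ρ f τ E e (e x) =
      η x * (cf (fun z => f i (e.symm z)) (fun z => ρ i (e.symm z)) τ (e x) *
        (Matrix.vecMulVec (Dc (fun z => f i (e.symm z)) (fun z => ρ i (e.symm z)) (e x))
          (star (Dc (fun z => f i (e.symm z)) (fun z => ρ i (e.symm z)) (e x))) *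
            En s π e x).trace.re) := by
  have h1 : e.symm (e x) ∈ L.U i := by rwa [hx.left_inv]
  unfold Pd
  rw [P301.H98.ddc_ul hρ (isSection hf) hτ hx hi, curvature_eq hρ hx hi,
    P301.H98.nrm_symm hρ (isSection hf) h1, sub_add_cancel, hC.eq e x hx, Pm, Matrix.mul_smul,
    Matrix.smul_mul, Matrix.trace_smul, Matrix.trace_smul, smul_eq_mul, smul_eq_mul,
    Complex.re_ofReal_mul, Complex.re_ofReal_mul]

theorem cont_nrm (hρ : IsMetric L ρ) (hf : Sec L 1 f) : Continuous (nrm L ρ f) := by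
  refine continuous_iff_continuousAt.2 fun x => ?_
  obtain ⟨i, hi⟩ := L.cover x
  have hx : At (chartAt (Cm d) x) x := ⟨chart_mem_atlas _ x, mem_chart_source _ x⟩
  have h1 := (hf.1 i _ x hx hi).continuousAt.comp ((chartAt (Cm d) x).continuousAt hx.2)
  have h2 := (hρ.smooth i _ x hx hi).continuousAt.comp ((chartAt (Cm d) x).continuousAt hx.2)
  refine ((h1.norm.pow 2).mul (Real.continuous_exp.continuousAt.comp h2.neg)).congr ?_
  filter_upwards [(L.isOpen i).mem_nhds hi, (chartAt (Cm d) x).open_source.mem_nhds hx.2]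
    with y k1 k2
  rw [P301.H98.nrm_eq hρ (isSection hf) k1]
  simp [(chartAt (Cm d) x).left_inv k2]

theorem pd_dens (hρ : IsMetric L ρ) (hf : Sec L 1 f) (hτ : 0 < τ) (hE : IsCoForm E) :
    IsDensity (Pd L ρ f τ E) := by
  have h1 := (P301.H98.rform_ddc (P301.H98.smooth_ul hρ (isSection hf) hτ)).closed
  have h2 := (P301.H98.rform_curvature hρ).closed
  have h3 : Continuous fun x => nrm L ρ f x / (nrm L ρ f x + τ) :=
    (cont_nrm hρ hf).div ((cont_nrm hρ hf).add continuous_const) fun x =>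
      (add_pos_of_nonneg_of_pos (P301.H98.nrm_nonneg x) hτ).ne'
  have h4 := (hE.isDensity h1.form h1.smooth).add ((hE.isDensity h2.form h2.smooth).smul h3)
  have h5 : Pd L ρ f τ E = fun e z => (ddc (ul L ρ f τ) e z * E e z).trace.re +
      nrm L ρ f (e.symm z) / (nrm L ρ f (e.symm z) + τ) * (curvature L ρ e z * E e z).trace.re := by
    funext e z
    rw [Pd, Matrix.add_mul, Matrix.trace_add, Complex.add_re, Matrix.smul_mul, Matrix.trace_smul,
      smul_eq_mul, Complex.re_ofReal_mul]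
  rw [h5]
  exact h4

theorem lint_le [T2Space X] [CompactSpace X] {D : Chart d X → Cm d → ℝ} (hD : IsDensity D)
    (h0 : ∀ e x, At e x → 0 ≤ D e (e x)) {e : Chart d X} (he : e ∈ atlas (Cm d) X) :
    ∫⁻ z in e.target, ENNReal.ofReal (D e z) ≤ ENNReal.ofReal (intX D) := by
  borelize X
  have hfin := AMP.isFiniteMeasure_volD hD
  have h1 := P299.H167.lintegral_volD hD h0 he
    (measurable_one.indicator e.open_source.measurableSet) fun x hx => indicator_of_notMem hx _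
  have h2 := AMP.integral_volD hD h0 (f := fun _ => 1) continuous_const
  simp only [one_mul, integral_const, smul_eq_mul, mul_one] at h2
  rw [← h2, ofReal_measureReal]
  refine le_trans (le_of_eq ?_) (measure_mono (subset_univ e.source))
  rw [← lintegral_indicator_one e.open_source.measurableSet, h1]
  refine setLIntegral_congr_fun e.open_target.measurableSet fun z hz => ?_
  rw [indicator_of_mem (e.map_target hz), Pi.one_apply, mul_one]

end Trf

open Trf in
/-- **TRF** -/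
theorem trf_of (jen : JEN) (prc : PRC) : TRF := by
  intro d X _ _ _ _ _ _ s hs hdet n O π b r r' E η hT hL hC ι L ρ f hρ hf hlim p hp hb i hi h0
  by_contra hcon
  set e := chartAt (Cm d) p
  have he : At e p := ⟨chart_mem_atlas _ p, mem_chart_source _ p⟩
  obtain ⟨Ψ, W, R, C, hR, hC0, hΨ0, han, hinj, hmem, hfib, hcmp⟩ :=
    prc d X s hs hdet n O π b r hT hL e p he hp
  have c0 := (han 0 (mem_ball_self hR)).continuousAt
  have c1 : ContinuousAt (fun y => e.symm (Ψ y)) 0 :=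
    (e.continuousAt_symm he.mem_target).comp_of_eq c0 hΨ0
  have c2 : ContinuousAt (fun y => π (e.symm (Ψ y))) 0 := continuousAt_pi.2 fun j =>
    ((hT.ind p hp).1 j e he).continuousAt.comp_of_eq c0 hΨ0
  have p0 : e.symm (Ψ 0) = p := by rw [hΨ0, he.left_inv]
  obtain ⟨R1, hR1, hb1⟩ := Metric.eventually_nhds_iff_ball.1
    ((c1.eventually_mem ((L.isOpen i).mem_nhds (p0.symm ▸ hi))).and
      ((c2.eventually_mem (isOpen_ball.mem_nhds (p0.symm ▸ hb))).and (ball_mem_nhds 0 hR)))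
  have hs1 : ball (0 : Cm d) R1 ⊆ ball 0 R := fun y hy => (hb1 y hy).2.2
  have hat : ∀ y ∈ ball (0 : Cm d) R1, At e (e.symm (Ψ y)) := fun y hy =>
    At.of_target he.1 (hmem y (hs1 hy)).1
  have hri : ∀ y ∈ ball (0 : Cm d) R1, e (e.symm (Ψ y)) = Ψ y := fun y hy =>
    e.right_inv (hmem y (hs1 hy)).1
  have a0 : ∀ y ∈ ball (0 : Cm d) R1, AnalyticAt ℂ (fun z => f i (e.symm z)) (Ψ y) := fun y hy =>
    hri y hy ▸ hf.1 i e _ (hat y hy) (hb1 y hy).1
  have a1 : ∀ y ∈ ball (0 : Cm d) R1, ContDiffAt ℝ ∞ (fun z => ρ i (e.symm z)) (Ψ y) :=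
    fun y hy => hri y hy ▸ hρ.smooth i e _ (hat y hy) (hb1 y hy).1
  have aF : ∀ y ∈ ball (0 : Cm d) R1, AnalyticAt ℂ (fun z => f i (e.symm (Ψ z))) y := fun y hy =>
    (a0 y hy).comp (han y (hs1 hy))
  have aρ : ∀ y ∈ ball (0 : Cm d) R1, ContDiffAt ℝ ∞ (fun z => ρ i (e.symm (Ψ z))) y :=
    fun y hy => (a1 y hy).comp y (((han y (hs1 hy)).contDiffAt (n := ∞)).restrict_scalars ℝ)
  obtain ⟨v, hv, hvW, hv0⟩ : ∃ v ∈ ball (0 : Cm d) R1, v ∈ W ∧ f i (e.symm (Ψ v)) ≠ 0 := by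
    by_contra k
    push Not at k
    refine hcon ?_
    filter_upwards [hfib _ (ball_mem_nhds 0 hR1), e.open_source.mem_nhds he.2] with x k1 k2 k3
    obtain ⟨y, k4, k5, k6⟩ := k1 k3
    have := k y k4 k5
    rwa [k6, e.left_inv k2] at this
  obtain ⟨c, hc, hev⟩ := jen d _ _ 0 v R1 hR1 aF aρ (by simp only [p0, h0])
    (P301.H98.generic aF hR1 (by rwa [zero_add]) (by rwa [zero_add]))
  have key : ∀ τ : ℝ, 0 < τ → ∫⁻ z in ball (0 : Cm d) R1, ENNReal.ofReal
      (cf (fun z => f i (e.symm (Ψ z))) (fun z => ρ i (e.symm (Ψ z))) τ z *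
        ‖v ⬝ᵥ Dc (fun z => f i (e.symm (Ψ z))) (fun z => ρ i (e.symm (Ψ z))) z‖ ^ 2) ≤
      ENNReal.ofReal (C * ‖v‖ ^ 2 * intX (Pd L ρ f τ E)) := fun τ hτ => by
    have h1 : ∀ e' x, At e' x → 0 ≤ Pd L ρ f τ E e' (e' x) := fun e' x hx => by
      obtain ⟨j, hj⟩ := L.cover x
      rw [pd_eq hρ hf hτ hC hx hj]
      exact mul_nonneg (hC.nn x) (mul_nonneg (cf_nn _ _ hτ _) (en_nn _ _ _ _ _))
    have h2 := lintegral_image_eq_lintegral_abs_det_fderiv_mul volume
      (measurableSet_ball (x := (0 : Cm d)) (ε := R1))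
      (f' := fun y => (fderiv ℂ Ψ y).restrictScalars ℝ) (fun y hy =>
        ((han y (hs1 hy)).differentiableAt.hasFDerivAt.restrictScalars ℝ).hasFDerivWithinAt)
      (hinj.mono hs1) fun z => ENNReal.ofReal (Pd L ρ f τ E e z)
    have h3 : Ψ '' ball 0 R1 ⊆ e.target := by
      rintro _ ⟨y, hy, rfl⟩
      exact (hmem y (hs1 hy)).1
    have h4 := (lintegral_mono_set h3).trans (lint_le (pd_dens hρ hf hτ hC.co) h1 he.1)
    have h5 : 0 ≤ C * ‖v‖ ^ 2 := by positivity
    rw [ENNReal.ofReal_mul h5]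
    refine le_trans ?_ (mul_le_mul_right h4 _)
    rw [h2, ← lintegral_const_mul' _ _ ENNReal.ofReal_ne_top]
    refine setLIntegral_mono' measurableSet_ball fun y hy => ?_
    rw [← ENNReal.ofReal_mul (abs_nonneg _), ← ENNReal.ofReal_mul h5]
    refine ENNReal.ofReal_le_ofReal ?_
    have h6 := pd_eq hρ hf hτ hC (hat y hy) (hb1 y hy).1
    rw [hri y hy, hC.one _ (hmem y (hs1 hy)).2 (hb1 y hy).2.1, one_mul] at h6
    have h7 := mul_le_mul_of_nonneg_left (hcmp y (hs1 hy) v hvW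
      (Dc (fun z => f i (e.symm z)) (fun z => ρ i (e.symm z)) (Ψ y)))
      (cf_nn (fun z => f i (e.symm z)) (fun z => ρ i (e.symm z)) hτ (Ψ y))
    rw [h6, chain (a0 y hy) (a1 y hy) (han y (hs1 hy))]
    exact h7.trans (le_of_eq (by ring))
  have h8 := hlim.const_mul (C * ‖v‖ ^ 2)
  rw [mul_zero] at h8
  refine hc.not_ge (ge_of_tendsto h8 ?_)
  filter_upwards [hev, self_mem_nhdsWithin] with τ k1 k2
  exact (ENNReal.ofReal_le_ofReal_iff'.1 (k1.trans (key τ k2))).resolve_right hc.not_ge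

end Vale.Agent.P301Z.Sec
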