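import Vale.Agent.P301Z.Sec.Defs
import Mathlib.LinearAlgebra.BilinearForm.Orthogonal
import Mathlib.LinearAlgebra.Matrix.BilinearForm

/-!
# P301Z, block SEC: a Lagrangian fibration is a tube
-/

open scoped Manifold ContDiff Topology Matrix
open Set Filter Metric
open Vale.Agent.P272.K
open Vale.Agent.P277Z (Hol)
open Vale.Agent.P277Z.Slc (Ind dd)
open Vale.Agent.P301Z.Sa

noncomputable section

namespace Vale.Agent.P301Z.Sec

namespace Tub

/-- a Lagrangian subspace is coisotropic -/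
theorem lin {n : ℕ} (A : (Fin (n + n) → ℂ) →ₗ[ℂ] Fin n → ℂ) (hA : Function.Surjective A)
    (G : Fin n → Fin (n + n) → ℂ) (hG : ∀ v l, A v l = G l ⬝ᵥ v)
    (S : Matrix (Fin (n + n)) (Fin (n + n)) ℂ) (hS : S.det ≠ 0)
    (hl : ∀ v v', A v = 0 → A v' = 0 → v ⬝ᵥ (S *ᵥ v') = 0) (i j : Fin n) :
    G i ⬝ᵥ (S⁻¹ *ᵥ G j) = 0 := by
  have h1 := LinearMap.BilinForm.finrank_orthogonal
    (LinearMap.BilinForm.nondegenerate_toBilin'_of_det_ne_zero' S hS) (LinearMap.ker A)
  have h2 := A.finrank_range_add_finrank_ker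
  rw [LinearMap.range_eq_top.mpr hA, finrank_top, Module.finrank_fin_fun,
    Module.finrank_fin_fun] at h2
  rw [Module.finrank_fin_fun] at h1
  have h3 : LinearMap.ker A = (Matrix.toBilin' S).orthogonal (LinearMap.ker A) := by
    refine Submodule.eq_of_le_of_finrank_le (fun v' hv' => ?_) (by omega)
    rw [LinearMap.BilinForm.mem_orthogonal_iff]
    intro v hv
    rw [Matrix.toBilin'_apply']
    exact hl v v' hv hv'
  have h4 : S⁻¹ *ᵥ G j ∈ LinearMap.ker A := by
    rw [h3, LinearMap.BilinForm.mem_orthogonal_iff]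
    intro v hv
    rw [Matrix.toBilin'_apply', Matrix.mulVec_mulVec, Matrix.mul_nonsing_inv _ (Ne.isUnit hS),
      Matrix.one_mulVec, dotProduct_comm, ← hG, LinearMap.mem_ker.mp hv, Pi.zero_apply]
  rw [← hG, LinearMap.mem_ker.mp h4, Pi.zero_apply]

variable {d : ℕ} {X : Type} [TopologicalSpace X] [ChartedSpace (Cm d) X]

theorem gr_dot {f : X → ℂ} {x : X} (h : Hol d f x) {e : Chart d X} (he : At e x) (v : Cm d) :
    gr f e x ⬝ᵥ v = dd f e x v := by
  have h1 : v = ∑ a, v a • (Pi.single a 1 : Cm d) := by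
    funext i
    simp [Finset.sum_apply, Pi.single_apply]
  conv_rhs => rw [h1, map_sum]
  refine Finset.sum_congr rfl fun a _ => ?_
  rw [map_smul, gr, INT.dz_of_holo (h e he).differentiableAt, smul_eq_mul, mul_comm, dd]

theorem fd_pi {n : ℕ} {π : X → Cm n} {x : X} (h : ∀ j, Hol d (fun y => π y j) x) {e : Chart d X}
    (he : At e x) : fderiv ℂ (fun z => π (e.symm z)) (e x) =
      ContinuousLinearMap.pi fun j => dd (fun y => π y j) e x :=
  fderiv_pi fun j => (h j e he).differentiableAt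

theorem fd_app {n : ℕ} {π : X → Cm n} {x : X} (h : ∀ j, Hol d (fun y => π y j) x) {e : Chart d X}
    (he : At e x) (v : Cm d) (l : Fin n) :
    fderiv ℂ (fun z => π (e.symm z)) (e x) v l = gr (fun y => π y l) e x ⬝ᵥ v := by
  rw [fd_pi h he, gr_dot (h l) he, ContinuousLinearMap.pi_apply]

end Tub

open Tub in
theorem tub : TUB := by
  intro n V s a _ hdet F
  refine ⟨⟨F.opn, one_pos, fun x hx => ⟨F.hol x hx, fun e he => ?_⟩, F.maps, F.prop,
    fun t ht => ⟨?_, F.conn t ht⟩, fun x hx e he i j => ?_⟩, fun x hx e he v v' hv hv' => ?_⟩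
  · rw [Vale.Agent.P277Z.Slc.ind_iff_surj, ← fd_pi (F.hol x hx) he]
    exact F.sbm x hx e he
  · obtain ⟨x, hx, hxt⟩ := F.onto t ht
    exact ⟨x, hx, hxt⟩
  · exact lin (fderiv ℂ (fun z => F.π (e.symm z)) (e x)).toLinearMap (F.sbm x hx e he)
      (fun l => gr (fun y => F.π y l) e x) (fd_app (F.hol x hx) he) _ (hdet e x he)
      (F.lag x hx e he) i j
  · exact F.lag x hx e he v v' (funext fun l => (fd_app (F.hol x hx) he v l).trans (hv l))
      (funext fun l => (fd_app (F.hol x hx) he v' l).trans (hv' l))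

end Vale.Agent.P301Z.Sec
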