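import Vale.Agent.P301Z.Sec.Asm
import Vale.Agent.P301Z.Sec.Hjt
import Vale.Agent.P301Z.Sec.Tub
import Vale.Agent.P301Z.Sec.Exc
import Vale.Agent.P301Z.Sec.Cof
import Vale.Agent.P301Z.Sec.Stk
import Vale.Agent.P301Z.Sec.Lim
import Vale.Agent.P301Z.Sec.Prc
import Vale.Agent.P301Z.Sec.Trf
import Vale.Agent.P301Z.Sec.Mon
import Vale.Agent.P301Z.Sec.Jen
import Vale.Agent.P301Z.Sec.Sub2

/-!
# P301Z, block SEC from Lemma H
-/

namespace Vale.Agent.P301Z.Sec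

theorem sec_hl2 (h : Ho.HL2) : SEC :=
  sec_of tub exc cof stk lim (trf_of jen prc) sub2 (hjt_of h) mon

theorem hpt_hl2 (h : Ho.HL2) : Sa.HPT := hpt_of (hjt_of h)

end Vale.Agent.P301Z.Sec
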